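import Mathlib
import Crest.Prelude.Def_QuadraticTransport

/-!
Row 82 (S0109, S0110): shared definitions.

`IsBrenier K R σ φ ψ T`: dual potentials `φ, ψ` and a transport map `T` from the uniform
probability on `K` to a target `σ` carried by the closed ball of radius `R`, with complementary
slackness `φ x + ψ (T x) = ⟪x, T x⟫` almost everywhere.
-/

set_option autoImplicit false

namespace Crest.Agent.R082

open MeasureTheory Crest.AnalysisR.OT
open scoped RealInnerProductSpace ENNReal NNReal

/-- Euclidean space of dimension `d`. -/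
abbrev E (d : ℕ) : Type := EuclideanSpace ℝ (Fin d)

/-- Brenier data for the source `uniformProbOn K` and the target `σ`. -/
structure IsBrenier {d : ℕ} (K : Set (E d)) (R : ℝ) (σ : Measure (E d))
    (φ ψ : E d → ℝ) (T : E d → E d) : Prop where
  lipφ : ∀ x x', |φ x - φ x'| ≤ R * ‖x - x'‖
  lipψ : ∀ y y', |ψ y - ψ y'| ≤ R * ‖y - y'‖
  bddφ : ∀ x, ‖x‖ ≤ R → |φ x| ≤ 2 * R ^ 2
  bddψ : ∀ y, ‖y‖ ≤ R → |ψ y| ≤ 2 * R ^ 2
  feas : ∀ x y, ‖y‖ ≤ R → ⟪x, y⟫ ≤ φ x + ψ y
  measT : Measurable T
  mapT : (uniformProbOn K).map T = σ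
  memT : ∀ᵐ x ∂(uniformProbOn K), ‖T x‖ ≤ R
  eqT : ∀ᵐ x ∂(uniformProbOn K), φ x + ψ (T x) = ⟪x, T x⟫

/-- The standing assumptions on the source body `K` and the radius `R`. -/
structure IsBody {d : ℕ} (K : Set (E d)) (R : ℝ) : Prop where
  compact : IsCompact K
  convex : Convex ℝ K
  int_ne : (interior K).Nonempty
  R_pos : 0 < R
  norm_le : ∀ x ∈ K, ‖x‖ ≤ R

namespace IsBody

variable {d : ℕ} {K : Set (E d)} {R : ℝ}

theorem measurableSet (h : IsBody K R) : MeasurableSet K := h.compact.measurableSet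

theorem vol_ne_top (h : IsBody K R) : volume K ≠ ∞ := h.compact.measure_lt_top.ne

theorem vol_ne_zero (h : IsBody K R) : volume K ≠ 0 :=
  (MeasureTheory.Measure.measure_pos_of_nonempty_interior volume h.int_ne).ne'

theorem isProb (h : IsBody K R) : IsProbabilityMeasure (uniformProbOn K) := by
  constructor
  simp only [uniformProbOn, Measure.smul_apply, Measure.restrict_apply_univ, smul_eq_mul]
  exact ENNReal.inv_mul_cancel h.vol_ne_zero h.vol_ne_top

theorem ae_mem (h : IsBody K R) : ∀ᵐ x ∂(uniformProbOn K), x ∈ K := by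
  unfold uniformProbOn
  exact Measure.ae_smul_measure (ae_restrict_mem h.measurableSet) _

theorem ae_norm_le (h : IsBody K R) : ∀ᵐ x ∂(uniformProbOn K), ‖x‖ ≤ R :=
  h.ae_mem.mono fun x hx => h.norm_le x hx

theorem absCont (_h : IsBody K R) : uniformProbOn K ≪ (volume : Measure (E d)) := by
  unfold uniformProbOn
  exact (Measure.smul_absolutelyContinuous).trans (Measure.absolutelyContinuous_of_le Measure.restrict_le_self)

end IsBody

namespace IsBrenier

variable {d : ℕ} {K : Set (E d)} {R : ℝ} {σ : Measure (E d)} {φ ψ : E d → ℝ} {T : E d → E d}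

theorem continuous_of_lip {f : E d → ℝ} {R : ℝ} (hf : ∀ x x', |f x - f x'| ≤ R * ‖x - x'‖) :
    Continuous f := by
  have : LipschitzWith (Real.toNNReal R) f := by
    refine LipschitzWith.of_dist_le_mul fun x y => ?_
    rw [Real.dist_eq, dist_eq_norm]
    refine (hf x y).trans (mul_le_mul_of_nonneg_right ?_ (norm_nonneg _))
    exact Real.le_coe_toNNReal R
  exact this.continuous

theorem contφ (h : IsBrenier K R σ φ ψ T) : Continuous φ := continuous_of_lip h.lipφ

theorem contψ (h : IsBrenier K R σ φ ψ T) : Continuous ψ := continuous_of_lip h.lipψ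

end IsBrenier

end Crest.Agent.R082
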