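import Mathlib
import Crest.Agent.R082.Defs

/-!
Row 82: Brenier's theorem for a uniform source and a target carried by a closed ball
(direct method on the dual problem, first variation).
-/

set_option autoImplicit false

namespace Crest.Agent.R082

open MeasureTheory Crest.AnalysisR.OT Set Filter Topology
open scoped RealInnerProductSpace ENNReal NNReal BoundedContinuousFunction

namespace Bren

variable {d : ℕ}

/-- The conjugate of `f` over the set `S`. -/
noncomputable def conj (S : Set (E d)) (f : E d → ℝ) (x : E d) : ℝ :=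
  sSup ((fun y => ⟪x, y⟫ - f y) '' S)

theorem exists_conj {S : Set (E d)} (hS : IsCompact S) (hne : S.Nonempty) {f : E d → ℝ}
    (hf : Continuous f) (x : E d) :
    ∃ y ∈ S, conj S f x = ⟪x, y⟫ - f y ∧ ∀ z ∈ S, ⟪x, z⟫ - f z ≤ ⟪x, y⟫ - f y := by
  have hc : Continuous fun y : E d => ⟪x, y⟫ - f y := by fun_prop
  exact hS.exists_sSup_image_eq_and_ge hne hc.continuousOn

theorem le_conj {S : Set (E d)} (hS : IsCompact S) {f : E d → ℝ}
    (hf : Continuous f) (x : E d) {z : E d} (hz : z ∈ S) : ⟪x, z⟫ - f z ≤ conj S f x := by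
  obtain ⟨y, -, h1, h2⟩ := exists_conj hS ⟨z, hz⟩ hf x
  rw [h1]; exact h2 z hz

theorem conj_le {S : Set (E d)} (hS : IsCompact S) (hne : S.Nonempty) {f : E d → ℝ}
    (hf : Continuous f) (x : E d) {c : ℝ} (h : ∀ z ∈ S, ⟪x, z⟫ - f z ≤ c) : conj S f x ≤ c := by
  obtain ⟨y, hy, h1, -⟩ := exists_conj hS hne hf x
  rw [h1]; exact h y hy

theorem conj_sub_le {S : Set (E d)} (hS : IsCompact S) (hne : S.Nonempty) {R : ℝ}
    (hR : ∀ y ∈ S, ‖y‖ ≤ R) {f : E d → ℝ} (hf : Continuous f) (x x' : E d) :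
    conj S f x - conj S f x' ≤ R * ‖x - x'‖ := by
  have : conj S f x ≤ conj S f x' + R * ‖x - x'‖ := by
    refine conj_le hS hne hf x fun z hz => ?_
    have h1 := le_conj hS hf x' hz
    have h2 : ⟪x - x', z⟫ ≤ ‖x - x'‖ * ‖z‖ := real_inner_le_norm _ _
    have h3 : ‖x - x'‖ * ‖z‖ ≤ ‖x - x'‖ * R := mul_le_mul_of_nonneg_left (hR z hz) (norm_nonneg _)
    rw [inner_sub_left] at h2
    linarith
  linarith

theorem conj_lip {S : Set (E d)} (hS : IsCompact S) (hne : S.Nonempty) {R : ℝ}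
    (hR : ∀ y ∈ S, ‖y‖ ≤ R) {f : E d → ℝ} (hf : Continuous f) (x x' : E d) :
    |conj S f x - conj S f x'| ≤ R * ‖x - x'‖ := by
  rw [abs_le]
  have h1 := conj_sub_le hS hne hR hf x x'
  have h2 := conj_sub_le hS hne hR hf x' x
  rw [norm_sub_rev] at h2
  constructor <;> linarith

theorem conj_cont {S : Set (E d)} (hS : IsCompact S) (hne : S.Nonempty) {R : ℝ}
    (hR : ∀ y ∈ S, ‖y‖ ≤ R) {f : E d → ℝ} (hf : Continuous f) : Continuous (conj S f) :=
  IsBrenier.continuous_of_lip (conj_lip hS hne hR hf)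

theorem conj_le_add {S : Set (E d)} (hS : IsCompact S) (hne : S.Nonempty) {f g : E d → ℝ}
    (hf : Continuous f) (hg : Continuous g) {c : ℝ} (h : ∀ y ∈ S, g y ≤ f y + c) (x : E d) :
    conj S f x ≤ conj S g x + c := by
  refine conj_le hS hne hf x fun z hz => ?_
  have := le_conj hS hg x hz
  have := h z hz
  linarith

theorem integrable_of_cont {μ : Measure (E d)} [IsFiniteMeasure μ] {R : ℝ}
    (hμ : ∀ᵐ y ∂μ, ‖y‖ ≤ R) {f : E d → ℝ} (hf : Continuous f) : Integrable f μ := by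
  obtain ⟨C, hC⟩ := (isCompact_closedBall (0 : E d) R).exists_bound_of_continuousOn
    hf.continuousOn
  refine Integrable.mono' (integrable_const C) hf.aestronglyMeasurable ?_
  filter_upwards [hμ] with y hy
  exact hC y (by simpa using hy)

/-- The closed ball. -/
abbrev B (d : ℕ) (R : ℝ) : Set (E d) := Metric.closedBall 0 R

theorem B_compact (R : ℝ) : IsCompact (B d R) := isCompact_closedBall _ _

theorem mem_B {R : ℝ} {y : E d} : y ∈ B d R ↔ ‖y‖ ≤ R := by simp [B]

theorem B_ne {R : ℝ} (hR : 0 < R) : (B d R).Nonempty := ⟨0, by simp [B, hR.le]⟩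

theorem B_norm {R : ℝ} : ∀ y ∈ B d R, ‖y‖ ≤ R := fun _ hy => mem_B.1 hy

/-- The dual functional. -/
noncomputable def J (R : ℝ) (ρ σ : Measure (E d)) (ψ : E d → ℝ) : ℝ :=
  ∫ x, conj (B d R) ψ x ∂ρ + ∫ y, ψ y ∂σ

/-- The compact class of normalised Lipschitz potentials. -/
def A (d : ℕ) (R : ℝ) : Set (E d → ℝ) :=
  {ψ | (∀ y y', |ψ y - ψ y'| ≤ R * ‖y - y'‖) ∧ ψ 0 = 0}

theorem A_cont {R : ℝ} {ψ : E d → ℝ} (h : ψ ∈ A d R) : Continuous ψ :=
  IsBrenier.continuous_of_lip h.1

theorem A_abs {R : ℝ} {ψ : E d → ℝ} (h : ψ ∈ A d R) (y : E d) : |ψ y| ≤ R * ‖y‖ := by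
  simpa [h.2] using h.1 y 0

theorem A_compact (R : ℝ) : IsCompact (A d R) := by
  have hK : IsCompact (Set.pi univ fun y : E d => Icc (-(R * ‖y‖)) (R * ‖y‖)) :=
    isCompact_univ_pi fun y => isCompact_Icc
  refine hK.of_isClosed_subset ?_ ?_
  · have h1 : IsClosed {ψ : E d → ℝ | ∀ y y', |ψ y - ψ y'| ≤ R * ‖y - y'‖} := by
      simp only [Set.ofPred_forall]
      refine isClosed_iInter fun y => isClosed_iInter fun y' => ?_
      exact isClosed_le (by fun_prop) continuous_const
    have h2 : IsClosed {ψ : E d → ℝ | ψ 0 = 0} := isClosed_eq (by fun_prop) continuous_const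
    exact h1.inter h2
  · intro ψ hψ y _
    exact abs_le.1 (A_abs hψ y)

theorem J_le_add {R : ℝ} (hR : 0 < R) {ρ σ : Measure (E d)} [IsProbabilityMeasure ρ]
    [IsProbabilityMeasure σ] (hρ : ∀ᵐ y ∂ρ, ‖y‖ ≤ R) (hσ : ∀ᵐ y ∂σ, ‖y‖ ≤ R)
    {f g : E d → ℝ} (hf : Continuous f) (hg : Continuous g) {ε : ℝ}
    (h : ∀ y ∈ B d R, |f y - g y| ≤ ε) : J R ρ σ f ≤ J R ρ σ g + 2 * ε := by
  have c1 := conj_cont (B_compact R) (B_ne hR) B_norm hf
  have c2 := conj_cont (B_compact R) (B_ne hR) B_norm hg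
  have h1 : ∫ x, conj (B d R) f x ∂ρ ≤ ∫ x, (conj (B d R) g x + ε) ∂ρ := by
    refine integral_mono (integrable_of_cont hρ c1)
      ((integrable_of_cont hρ c2).add (integrable_const _)) fun x => ?_
    refine conj_le_add (B_compact R) (B_ne hR) hf hg (fun y hy => ?_) x
    have := abs_le.1 (h y hy)
    linarith [this.1]
  have h2 : ∫ y, f y ∂σ ≤ ∫ y, (g y + ε) ∂σ := by
    refine integral_mono_ae (integrable_of_cont hσ hf)
      ((integrable_of_cont hσ hg).add (integrable_const _)) ?_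
    filter_upwards [hσ] with y hy
    have := abs_le.1 (h y (mem_B.2 hy))
    linarith [this.2]
  rw [integral_add (integrable_of_cont hρ c2) (integrable_const _)] at h1
  rw [integral_add (integrable_of_cont hσ hg) (integrable_const _)] at h2
  simp only [integral_const, probReal_univ, one_smul] at h1 h2
  unfold J
  linarith

theorem J_continuousOn {R : ℝ} (hR : 0 < R) {ρ σ : Measure (E d)} [IsProbabilityMeasure ρ]
    [IsProbabilityMeasure σ] (hρ : ∀ᵐ y ∂ρ, ‖y‖ ≤ R) (hσ : ∀ᵐ y ∂σ, ‖y‖ ≤ R) :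
    ContinuousOn (J R ρ σ) (A d R) := by
  intro ψ₀ h₀
  rw [ContinuousWithinAt, Metric.tendsto_nhds]
  intro ε hε
  set δ : ℝ := ε / (4 * (2 * R + 1)) with hδ
  have hδpos : 0 < δ := by positivity
  obtain ⟨T, -, hTfin, hT⟩ := finite_cover_balls_of_compact (B_compact (d := d) R) hδpos
  have hopen : ∀ᶠ ψ in 𝓝 ψ₀, ∀ t ∈ T, |ψ t - ψ₀ t| < δ := by
    rw [eventually_all_finite hTfin]
    intro t _
    have hc : Continuous fun ψ : E d → ℝ => |ψ t - ψ₀ t| := by fun_prop
    exact hc.continuousAt.eventually_lt continuousAt_const (by simpa using hδpos)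
  filter_upwards [nhdsWithin_le_nhds hopen, self_mem_nhdsWithin] with ψ hψ hA
  have key : ∀ y ∈ B d R, |ψ y - ψ₀ y| ≤ (2 * R + 1) * δ := by
    intro y hy
    obtain ⟨t, ht, hyt⟩ := mem_iUnion₂.1 (hT hy)
    have e1 : ‖y - t‖ ≤ δ := by
      rw [Metric.mem_ball, dist_eq_norm] at hyt
      exact hyt.le
    have a1 := abs_le.1 (hA.1 y t)
    have a2 := abs_le.1 (h₀.1 y t)
    have a3 := abs_lt.1 (hψ t ht)
    have a4 : R * ‖y - t‖ ≤ R * δ := mul_le_mul_of_nonneg_left e1 hR.le
    rw [abs_le]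
    constructor <;> linarith [a1.1, a1.2, a2.1, a2.2, a3.1, a3.2]
  have k1 := J_le_add hR hρ hσ (A_cont hA) (A_cont h₀) key
  have k2 := J_le_add hR hρ hσ (A_cont h₀) (A_cont hA)
    (fun y hy => by rw [abs_sub_comm]; exact key y hy)
  have e : 2 * ((2 * R + 1) * δ) = ε / 2 := by rw [hδ]; field_simp; ring
  rw [Real.dist_eq, abs_lt]
  constructor <;> linarith

theorem exists_min {K : Set (E d)} {R : ℝ} (hK : IsBody K R) (σ : Measure (E d))
    [IsProbabilityMeasure σ] (hσ : ∀ᵐ y ∂σ, ‖y‖ ≤ R) :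
    ∃ ψ ∈ A d R, ∀ g : E d → ℝ, Continuous g →
      J R (uniformProbOn K) σ ψ ≤ J R (uniformProbOn K) σ g := by
  have := hK.isProb
  have hR := hK.R_pos
  have hρ := hK.ae_norm_le
  have hne : (A d R).Nonempty := ⟨fun _ => 0, fun y y' => by simp; positivity, rfl⟩
  obtain ⟨ψ, hψ, hmin⟩ := (A_compact R).exists_isMinOn hne (J_continuousOn hR hρ hσ)
  refine ⟨ψ, hψ, fun g hg => ?_⟩
  have hKne : K.Nonempty := hK.int_ne.mono interior_subset
  set φ' := conj (B d R) g with hφ'
  have cφ' : Continuous φ' := conj_cont (B_compact R) (B_ne hR) B_norm hg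
  set g' := conj K φ' with hg'
  have cg' : Continuous g' := conj_cont hK.compact hKne hK.norm_le cφ'
  set g'' : E d → ℝ := fun y => g' y - g' 0 with hg''
  have cg'' : Continuous g'' := cg'.sub continuous_const
  have hA : g'' ∈ A d R := by
    refine ⟨fun y y' => ?_, by simp [hg'']⟩
    have := conj_lip hK.compact hKne hK.norm_le cφ' y y'
    simpa [hg''] using this
  refine (hmin hA).trans ?_
  have c1 := conj_cont (B_compact R) (B_ne hR) B_norm cg''
  have h1 : ∫ x, conj (B d R) g'' x ∂(uniformProbOn K) ≤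
      ∫ x, (φ' x + g' 0) ∂(uniformProbOn K) := by
    refine integral_mono_ae (integrable_of_cont hρ c1)
      ((integrable_of_cont hρ cφ').add (integrable_const _)) ?_
    filter_upwards [hK.ae_mem] with x hx
    refine conj_le (B_compact R) (B_ne hR) cg'' x fun z _ => ?_
    have := le_conj hK.compact cφ' z hx
    rw [real_inner_comm] at this
    simp only [hg'']
    linarith
  have h2 : ∫ y, g'' y ∂σ ≤ ∫ y, (g y - g' 0) ∂σ := by
    refine integral_mono_ae (integrable_of_cont hσ cg'')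
      ((integrable_of_cont hσ hg).sub (integrable_const _)) ?_
    filter_upwards [hσ] with y hy
    have : g' y ≤ g y := by
      refine conj_le hK.compact hKne cφ' y fun x _ => ?_
      have := le_conj (B_compact R) hg x (mem_B.2 hy)
      rw [real_inner_comm] at this
      linarith
    simp only [hg'']
    linarith
  rw [integral_add (integrable_of_cont hρ cφ') (integrable_const _)] at h1
  rw [integral_sub (integrable_of_cont hσ hg) (integrable_const _)] at h2
  simp only [integral_const, probReal_univ, one_smul] at h1 h2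
  unfold J
  linarith

theorem gradient_eq_of_max {R : ℝ} {ψ : E d → ℝ} (hψ : Continuous ψ) {x y : E d}
    (hx : DifferentiableAt ℝ (conj (B d R) ψ) x) (hy : y ∈ B d R)
    (h : conj (B d R) ψ x = ⟪x, y⟫ - ψ y) : gradient (conj (B d R) ψ) x = y := by
  have hmin : IsLocalMin (fun z => conj (B d R) ψ z - ⟪y, z⟫) x := by
    refine Filter.Eventually.of_forall fun z => ?_
    have := le_conj (B_compact R) hψ z hy
    have e1 : ⟪y, z⟫ = ⟪z, y⟫ := real_inner_comm _ _
    have e2 : ⟪y, x⟫ = ⟪x, y⟫ := real_inner_comm _ _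
    simp only [e1, e2]
    linarith
  have hd : HasFDerivAt (fun z => conj (B d R) ψ z - ⟪y, z⟫)
      (fderiv ℝ (conj (B d R) ψ) x - innerSL ℝ y) x :=
    hx.hasFDerivAt.sub (innerSL ℝ y).hasFDerivAt
  have h0 := hmin.hasFDerivAt_eq_zero hd
  have h1 : fderiv ℝ (conj (B d R) ψ) x = innerSL ℝ y := sub_eq_zero.1 h0
  unfold gradient
  rw [h1]
  apply (InnerProductSpace.toDual ℝ (E d)).injective
  rw [LinearIsometryEquiv.apply_symm_apply]
  rfl

theorem tendsto_variation {R : ℝ} (hR : 0 < R) {ψ : E d → ℝ} (hψ : Continuous ψ)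
    (g : E d →ᵇ ℝ) {x y₀ : E d} (hy₀ : y₀ ∈ B d R) (h₀ : conj (B d R) ψ x = ⟪x, y₀⟫ - ψ y₀)
    (huniq : ∀ y ∈ B d R, conj (B d R) ψ x = ⟪x, y⟫ - ψ y → y = y₀) :
    Tendsto (fun n : ℕ => (conj (B d R) (fun y => ψ y - (1 / ((n : ℝ) + 1)) * g y) x -
      conj (B d R) ψ x) / (1 / ((n : ℝ) + 1))) atTop (𝓝 (g y₀)) := by
  rw [Metric.tendsto_atTop]
  intro ε hε
  -- the set where `g` is large misses the maximiser
  set C : Set (E d) := B d R ∩ {y | g y₀ + ε / 2 ≤ g y} with hC
  have hCc : IsCompact C :=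
    (B_compact R).inter_right (isClosed_le continuous_const g.continuous)
  obtain ⟨η, hη, hηC⟩ : ∃ η : ℝ, 0 < η ∧ ∀ y ∈ C, ⟪x, y⟫ - ψ y ≤ conj (B d R) ψ x - η := by
    rcases C.eq_empty_or_nonempty with hE | hne
    · exact ⟨1, one_pos, fun y hy => by simp [hE] at hy⟩
    · obtain ⟨y, hy, -, h2⟩ := exists_conj hCc hne hψ x
      have h3 := le_conj (B_compact R) hψ x hy.1
      have h4 : conj (B d R) ψ x ≠ ⟪x, y⟫ - ψ y := by
        intro h
        have := huniq y hy.1 h
        have h5 : g y₀ + ε / 2 ≤ g y := hy.2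
        rw [this] at h5
        linarith
      refine ⟨conj (B d R) ψ x - (⟪x, y⟫ - ψ y), sub_pos.2 (lt_of_le_of_ne h3 h4.symm),
        fun z hz => ?_⟩
      have := h2 z hz
      linarith
  obtain ⟨N, hN⟩ := exists_nat_gt (2 * ‖g‖ / η)
  refine ⟨N, fun n hn => ?_⟩
  set t : ℝ := 1 / ((n : ℝ) + 1) with ht
  have htpos : 0 < t := by positivity
  have htη : t * (2 * ‖g‖) ≤ η := by
    have h1 : (N : ℝ) ≤ n := by exact_mod_cast hn
    rw [div_lt_iff₀ hη] at hN
    rw [ht, one_div, inv_mul_le_iff₀ (by positivity)]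
    nlinarith
  have hc : Continuous fun y => ψ y - t * g y := hψ.sub (continuous_const.mul g.continuous)
  have lo : conj (B d R) ψ x + t * g y₀ ≤ conj (B d R) (fun y => ψ y - t * g y) x := by
    have := le_conj (B_compact R) hc x hy₀
    linarith
  have hi : conj (B d R) (fun y => ψ y - t * g y) x ≤ conj (B d R) ψ x + t * (g y₀ + ε / 2) := by
    refine conj_le (B_compact R) (B_ne hR) hc x fun z hz => ?_
    by_cases hzC : g y₀ + ε / 2 ≤ g z
    · have h1 := hηC z ⟨hz, hzC⟩
      have h2 : g z ≤ ‖g‖ := (le_abs_self _).trans (g.norm_coe_le_norm z)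
      have h3 : -‖g‖ ≤ g y₀ := (abs_le.1 (g.norm_coe_le_norm y₀)).1
      have h4 : t * g z ≤ t * ‖g‖ := mul_le_mul_of_nonneg_left h2 htpos.le
      have h5 : t * (-‖g‖) ≤ t * g y₀ := mul_le_mul_of_nonneg_left h3 htpos.le
      have h6 : 0 ≤ t * (ε / 2) := by positivity
      nlinarith
    · have h1 := le_conj (B_compact R) hψ x hz
      have h2 : t * g z ≤ t * (g y₀ + ε / 2) :=
        mul_le_mul_of_nonneg_left (not_le.1 hzC).le htpos.le
      linarith
  rw [Real.dist_eq, abs_lt]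
  constructor
  · have : g y₀ ≤ (conj (B d R) (fun y => ψ y - t * g y) x - conj (B d R) ψ x) / t := by
      rw [le_div_iff₀ htpos]; linarith
    linarith
  · have : (conj (B d R) (fun y => ψ y - t * g y) x - conj (B d R) ψ x) / t ≤ g y₀ + ε / 2 := by
      rw [div_le_iff₀ htpos]; linarith
    linarith

end Bren

open Bren

theorem exists_isBrenier {d : ℕ} {K : Set (E d)} {R : ℝ} (hK : IsBody K R) (σ : Measure (E d))
    [IsProbabilityMeasure σ] (hσ : ∀ᵐ y ∂σ, ‖y‖ ≤ R) : ∃ φ ψ T, IsBrenier K R σ φ ψ T := by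
  have := hK.isProb
  have hR := hK.R_pos
  have hρ := hK.ae_norm_le
  obtain ⟨ψ, hA, hmin⟩ := exists_min hK σ hσ
  have cψ := A_cont hA
  set φ := conj (B d R) ψ with hφ
  have lφ : ∀ x x', |φ x - φ x'| ≤ R * ‖x - x'‖ := conj_lip (B_compact R) (B_ne hR) B_norm cψ
  have cφ : Continuous φ := IsBrenier.continuous_of_lip lφ
  set T : E d → E d := fun x => gradient φ x with hT
  have mT : Measurable T := by
    have h1 : Measurable (fderiv ℝ φ) := measurable_fderiv ℝ φ
    exact (InnerProductSpace.toDual ℝ (E d)).symm.continuous.measurable.comp h1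
  have hdiff : ∀ᵐ x ∂(uniformProbOn K), DifferentiableAt ℝ φ x := by
    have : LipschitzWith (Real.toNNReal R) φ := by
      refine LipschitzWith.of_dist_le_mul fun x y => ?_
      rw [Real.dist_eq, dist_eq_norm]
      refine (lφ x y).trans (mul_le_mul_of_nonneg_right ?_ (norm_nonneg _))
      exact Real.le_coe_toNNReal R
    exact hK.absCont.ae_le (this.ae_differentiableAt (μ := volume))
  have hgood : ∀ᵐ x ∂(uniformProbOn K), T x ∈ B d R ∧ φ x = ⟪x, T x⟫ - ψ (T x) ∧
      ∀ y ∈ B d R, φ x = ⟪x, y⟫ - ψ y → y = T x := by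
    filter_upwards [hdiff] with x hx
    obtain ⟨y, hy, h1, -⟩ := exists_conj (B_compact R) (B_ne hR) cψ x
    have h2 : T x = y := gradient_eq_of_max cψ hx hy h1
    refine ⟨h2 ▸ hy, by rw [h2]; exact h1, fun z hz h3 => ?_⟩
    exact (gradient_eq_of_max cψ hx hz h3).symm
  have hle : ∀ g : E d →ᵇ ℝ, ∫ y, g y ∂σ ≤ ∫ x, g (T x) ∂(uniformProbOn K) := by
    intro g
    have hc : ∀ n : ℕ, Continuous fun y => ψ y - (1 / ((n : ℝ) + 1)) * g y := fun n =>
      cψ.sub (continuous_const.mul g.continuous)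
    have hcc : ∀ n : ℕ, Continuous (conj (B d R) fun y => ψ y - (1 / ((n : ℝ) + 1)) * g y) :=
      fun n => conj_cont (B_compact R) (B_ne hR) B_norm (hc n)
    have hlim := tendsto_integral_of_dominated_convergence (μ := uniformProbOn K)
      (F := fun (n : ℕ) x => (conj (B d R) (fun y => ψ y - (1 / ((n : ℝ) + 1)) * g y) x -
        φ x) / (1 / ((n : ℝ) + 1))) (f := fun x => g (T x)) (fun _ => ‖g‖)
      (fun n => (((hcc n).sub cφ).div_const _).aestronglyMeasurable) (integrable_const _)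
      (fun n => Filter.Eventually.of_forall fun x => by
        have htpos : (0 : ℝ) < 1 / ((n : ℝ) + 1) := by positivity
        have hb : ∀ y, |1 / ((n : ℝ) + 1) * g y| ≤ 1 / ((n : ℝ) + 1) * ‖g‖ := fun y => by
          rw [abs_mul, abs_of_pos htpos]
          exact mul_le_mul_of_nonneg_left (g.norm_coe_le_norm y) htpos.le
        have h1 := conj_le_add (B_compact R) (B_ne hR) (hc n) cψ
          (c := 1 / ((n : ℝ) + 1) * ‖g‖) (fun y _ => by
            have := (abs_le.1 (hb y)).2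
            linarith) x
        have h2 := conj_le_add (B_compact R) (B_ne hR) cψ (hc n)
          (c := 1 / ((n : ℝ) + 1) * ‖g‖) (fun y _ => by
            have := (abs_le.1 (hb y)).1
            linarith) x
        rw [Real.norm_eq_abs, abs_div, abs_of_pos htpos, div_le_iff₀ htpos, abs_le]
        constructor <;> linarith)
      (by
        filter_upwards [hgood] with x hx
        exact tendsto_variation hR cψ g hx.1 hx.2.1 hx.2.2)
    refine ge_of_tendsto' hlim fun n => ?_
    have htpos : (0 : ℝ) < 1 / ((n : ℝ) + 1) := by positivity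
    have h1 := hmin _ (hc n)
    unfold J at h1
    rw [integral_sub (integrable_of_cont hσ cψ)
      ((integrable_of_cont hσ g.continuous).const_mul _), integral_const_mul] at h1
    rw [integral_div, integral_sub (integrable_of_cont hρ (hcc n)) (integrable_of_cont hρ cφ),
      le_div_iff₀ htpos]
    linarith
  have hmap : (uniformProbOn K).map T = σ := by
    refine ext_of_forall_integral_eq_of_IsFiniteMeasure fun g => ?_
    rw [integral_map mT.aemeasurable g.continuous.aestronglyMeasurable]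
    have h1 := hle g
    have h2 := hle (-g)
    simp only [BoundedContinuousFunction.coe_neg, Pi.neg_apply, integral_neg] at h2
    linarith
  refine ⟨φ, ψ, T, lφ, hA.1, fun x hx => ?_, fun y hy => ?_, fun x y hy => ?_, mT, hmap,
    hgood.mono fun x hx => mem_B.1 hx.1, hgood.mono fun x hx => by linarith [hx.2.1]⟩
  · rw [abs_le]
    constructor
    · have := le_conj (B_compact R) cψ x (z := 0) (mem_B.2 (by simpa using hR.le))
      rw [hA.2, inner_zero_right] at this
      have : 0 ≤ φ x := by simpa using this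
      nlinarith
    · refine conj_le (B_compact R) (B_ne hR) cψ x fun z hz => ?_
      have h1 : ⟪x, z⟫ ≤ ‖x‖ * ‖z‖ := real_inner_le_norm _ _
      have h2 := (abs_le.1 (A_abs hA z)).1
      have h3 := mem_B.1 hz
      have h4 : ‖x‖ * ‖z‖ ≤ R * R := mul_le_mul hx h3 (norm_nonneg _) hR.le
      have h5 : R * ‖z‖ ≤ R * R := mul_le_mul_of_nonneg_left h3 hR.le
      nlinarith
  · have h1 := A_abs hA y
    have h5 : R * ‖y‖ ≤ R * R := mul_le_mul_of_nonneg_left hy hR.le
    nlinarith
  · have := le_conj (B_compact R) cψ x (mem_B.2 hy)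
    linarith

theorem IsBrenier.of_isOptimalMap {d : ℕ} {K : Set (E d)} {R : ℝ} {σ : Measure (E d)}
    {φ ψ : E d → ℝ} {T S : E d → E d} (hK : IsBody K R) (h : IsBrenier K R σ φ ψ T)
    (hS : IsOptimalMap (uniformProbOn K) σ S) : IsBrenier K R σ φ ψ S := by
  have := hK.isProb
  have hR := hK.R_pos
  have hρ := hK.ae_norm_le
  obtain ⟨mS, mapS, opt⟩ := hS
  have hclosed : MeasurableSet {y : E d | ‖y‖ ≤ R} :=
    (isClosed_le continuous_norm continuous_const).measurableSet
  have hσ : ∀ᵐ y ∂σ, ‖y‖ ≤ R := by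
    rw [← h.mapT]
    exact (ae_map_iff h.measT.aemeasurable hclosed).2 h.memT
  have memS : ∀ᵐ x ∂(uniformProbOn K), ‖S x‖ ≤ R := by
    rw [← mapS] at hσ
    exact ae_of_ae_map mS.aemeasurable hσ
  -- integrability of compositions
  have hint : ∀ (U : E d → E d), Measurable U → (∀ᵐ x ∂(uniformProbOn K), ‖U x‖ ≤ R) →
      ∀ f : E d × E d → ℝ, Continuous f → Integrable (fun x => f (x, U x)) (uniformProbOn K) := by
    intro U mU hU f hf
    obtain ⟨C, hC⟩ := ((B_compact (d := d) R).prod (B_compact (d := d) R)).exists_bound_of_continuousOn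
      hf.continuousOn
    refine Integrable.mono' (integrable_const C)
      (hf.measurable.comp (measurable_id.prodMk mU)).aestronglyMeasurable ?_
    filter_upwards [hρ, hU] with x hx hx'
    exact hC _ ⟨mem_B.2 hx, mem_B.2 hx'⟩
  have cφ := h.contφ
  have cψ := h.contψ
  have cG : Continuous fun y : E d => ‖y‖ ^ 2 - 2 * ψ y := by fun_prop
  have hcost : ∀ (U : E d → E d), Measurable U → (∀ᵐ x ∂(uniformProbOn K), ‖U x‖ ≤ R) →
      (uniformProbOn K).map U = σ →
      ∫ x, ‖x - U x‖ ^ 2 ∂(uniformProbOn K) =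
        ∫ x, (‖x‖ ^ 2 - 2 * φ x) ∂(uniformProbOn K) + ∫ y, (‖y‖ ^ 2 - 2 * ψ y) ∂σ +
          2 * ∫ x, (φ x + ψ (U x) - ⟪x, U x⟫) ∂(uniformProbOn K) := by
    intro U mU hU hmap
    have i1 : Integrable (fun x => ‖x‖ ^ 2 - 2 * φ x) (uniformProbOn K) :=
      hint U mU hU (fun p => ‖p.1‖ ^ 2 - 2 * φ p.1) (by fun_prop)
    have i2 : Integrable (fun x => ‖U x‖ ^ 2 - 2 * ψ (U x)) (uniformProbOn K) :=
      hint U mU hU (fun p => ‖p.2‖ ^ 2 - 2 * ψ p.2) (by fun_prop)
    have i3 : Integrable (fun x => φ x + ψ (U x) - ⟪x, U x⟫) (uniformProbOn K) :=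
      hint U mU hU (fun p => φ p.1 + ψ p.2 - ⟪p.1, p.2⟫) (by fun_prop)
    have i4 : Integrable (fun x => ‖x‖ ^ 2 - 2 * φ x + (‖U x‖ ^ 2 - 2 * ψ (U x)))
      (uniformProbOn K) := i1.add i2
    rw [← hmap, integral_map mU.aemeasurable cG.aestronglyMeasurable, ← integral_add i1 i2,
      ← integral_const_mul, ← integral_add i4 (i3.const_mul 2)]
    refine integral_congr_ae (Filter.Eventually.of_forall fun x => ?_)
    simp only
    rw [norm_sub_sq_real]
    ring
  have hlin : ∀ (U : E d → E d), Measurable U → (∀ᵐ x ∂(uniformProbOn K), ‖U x‖ ≤ R) →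
      ∫⁻ x, ‖x - U x‖ₑ ^ 2 ∂(uniformProbOn K) =
        ENNReal.ofReal (∫ x, ‖x - U x‖ ^ 2 ∂(uniformProbOn K)) := by
    intro U mU hU
    have i1 := hint U mU hU (fun p => ‖p.1 - p.2‖ ^ 2) (by fun_prop)
    rw [ofReal_integral_eq_lintegral_ofReal i1 (Filter.Eventually.of_forall fun x => by positivity)]
    refine lintegral_congr fun x => ?_
    rw [ENNReal.ofReal_pow (norm_nonneg _), ofReal_norm]
  have hopt := opt T h.measT h.mapT
  rw [hlin S mS memS, hlin T h.measT h.memT,
    ENNReal.ofReal_le_ofReal_iff (integral_nonneg fun x => by positivity),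
    hcost S mS memS mapS, hcost T h.measT h.memT h.mapT] at hopt
  have hT0 : ∫ x, (φ x + ψ (T x) - ⟪x, T x⟫) ∂(uniformProbOn K) = 0 := by
    refine integral_eq_zero_of_ae ?_
    filter_upwards [h.eqT] with x hx
    simp [hx]
  have hnn : 0 ≤ᵐ[uniformProbOn K] fun x => φ x + ψ (S x) - ⟪x, S x⟫ := by
    filter_upwards [memS] with x hx
    have := h.feas x (S x) hx
    simp only [Pi.zero_apply]
    linarith
  have i3 := hint S mS memS (fun p => φ p.1 + ψ p.2 - ⟪p.1, p.2⟫) (by fun_prop)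
  have hS0 : ∫ x, (φ x + ψ (S x) - ⟪x, S x⟫) ∂(uniformProbOn K) = 0 :=
    le_antisymm (by linarith) (integral_nonneg_of_ae hnn)
  have hae := (integral_eq_zero_iff_of_nonneg_ae hnn i3).1 hS0
  refine ⟨h.lipφ, h.lipψ, h.bddφ, h.bddψ, h.feas, mS, mapS, memS, ?_⟩
  filter_upwards [hae] with x hx
  simp only [Pi.zero_apply] at hx
  linarith

end Crest.Agent.R082
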