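import Crest.Agent.R082.PLK

/-!
Row 82: stability of first moments of cells under a midpoint inclusion.
-/

set_option autoImplicit false

namespace Crest.Agent.R082

open MeasureTheory Crest.AnalysisR.OT Set
open scoped RealInnerProductSpace ENNReal NNReal

variable {d : ℕ} {K : Set (E d)} {R : ℝ}

/-- The strongly concave weight. -/
noncomputable def wt (R : ℝ) (x : E d) : ℝ := 1 - ‖x‖ ^ 2 / (4 * R ^ 2)

theorem continuous_wt (R : ℝ) : Continuous (wt R : E d → ℝ) := by unfold wt; fun_prop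

theorem wt_le_one (R : ℝ) (x : E d) : wt R x ≤ 1 := by
  unfold wt
  have : 0 ≤ ‖x‖ ^ 2 / (4 * R ^ 2) := by positivity
  linarith

theorem wt_nonneg (hR : 0 < R) {x : E d} (hx : ‖x‖ ≤ R) : 0 ≤ wt R x := by
  unfold wt
  have h1 : ‖x‖ ^ 2 ≤ R ^ 2 := pow_le_pow_left₀ (norm_nonneg _) hx 2
  have : ‖x‖ ^ 2 / (4 * R ^ 2) ≤ 1 := by
    rw [div_le_one (by positivity)]; nlinarith [sq_nonneg R]
  linarith

theorem wt_mid (hR : 0 < R) (x y : E d) :
    2 * wt R (mid x y) = wt R x + wt R y + ‖x - y‖ ^ 2 / (8 * R ^ 2) := by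
  have h1 : ‖mid x y‖ ^ 2 = (‖x‖ ^ 2 + ‖y‖ ^ 2) / 2 - ‖x - y‖ ^ 2 / 4 := by
    unfold mid
    rw [← smul_add, norm_smul, mul_pow, norm_add_sq_real, norm_sub_sq_real]
    norm_num; ring
  unfold wt
  rw [h1]
  field_simp
  ring

theorem abs_wt_sub (hR : 0 < R) {x y : E d} (hx : ‖x‖ ≤ R) (hy : ‖y‖ ≤ R) :
    |wt R x - wt R y| ≤ ‖x - y‖ / (2 * R) := by
  have h1 : wt R x - wt R y = (‖y‖ - ‖x‖) * (‖y‖ + ‖x‖) / (4 * R ^ 2) := by
    unfold wt; field_simp; ring
  have h2 : |‖y‖ - ‖x‖| ≤ ‖x - y‖ := by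
    rw [norm_sub_rev]; exact abs_norm_sub_norm_le y x
  rw [h1, abs_div, abs_mul, abs_of_nonneg (add_nonneg (norm_nonneg y) (norm_nonneg x)),
    abs_of_pos (by positivity : (0 : ℝ) < 4 * R ^ 2), div_le_div_iff₀ (by positivity)
    (by positivity)]
  have h3 : ‖y‖ + ‖x‖ ≤ 2 * R := by linarith
  calc |‖y‖ - ‖x‖| * (‖y‖ + ‖x‖) * (2 * R) ≤ ‖x - y‖ * (2 * R) * (2 * R) := by gcongr
    _ = _ := by ring

theorem cell_real {a b gA gB gC mA mB r t c τ : ℝ} (ha : 0 ≤ a) (hb : 0 ≤ b) (hn : 0 < a + b)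
    (_hr : 0 ≤ r) (hA0 : 0 ≤ gA) (hA : gA ≤ a) (hB0 : 0 ≤ gB) (hB : gB ≤ b) (hmA : |mA| ≤ r * a)
    (hmB : |mB| ≤ r * b) (ht : t = (gB - gA) / (a + b)) (hc : c = 2 * r ^ 2 + t ^ 2 / 2)
    (hτ : τ = (gB - gA + t * (gA + gB) - (mA + mB) + c * (a - b)) / (a + b))
    (hX : gA + mA - t * gA + (τ - c) * a ≤ gC) :
    mA - mB ≤ 2 * gC - gA - gB + 5 / 2 * r ^ 2 * (a + b) + 5 / 2 * ((a - b) ^ 2 / (a + b)) := by
  set n := a + b with hn'
  set D := (a - b) / n with hD
  have e1 : a - b = D * n := by rw [hD]; field_simp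
  have e2 : gB - gA = t * n := by rw [ht]; field_simp
  have e3 : τ * n = t * n + t * (gA + gB) - (mA + mB) + c * (D * n) := by
    rw [hτ, ← e1, ← e2]; field_simp
  have e4 : (a - b) ^ 2 / n = D ^ 2 * n := by rw [e1]; field_simp
  have hc0 : 0 ≤ c := by rw [hc]; positivity
  -- the symmetric form of `2 X`
  have e5 : 2 * (gA + mA - t * gA + (τ - c) * a) =
      gA + gB + t ^ 2 * n + (mA - mB) + (τ * n) * D - c * n := by
    have h1 : a = (n + D * n) / 2 := by rw [← e1, hn']; ring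
    have h2 : gB = gA + t * n := by linarith
    have h3 : (τ - c) * a = (τ * n - c * n) * (1 + D) / 2 := by rw [h1]; ring
    rw [h3]
    have h4 : τ * n = t * n + t * (gA + gB) - (mA + mB) + c * (D * n) := e3
    linear_combination h4 - (1 - t) * h2
  have b1 : -(|t| * |D| * n) ≤ t * n * D := by
    have := neg_abs_le (t * D); rw [abs_mul] at this; nlinarith
  have b2 : -(|t| * |D| * n) ≤ t * (gA + gB) * D := by
    have h1 := neg_abs_le (t * D); rw [abs_mul] at h1
    have h2 : 0 ≤ |t| * |D| := by positivity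
    nlinarith
  have b3 : (mA + mB) * D ≤ r * |D| * n := by
    have h1 : |mA + mB| ≤ r * n := (abs_add_le _ _).trans (by rw [hn']; linarith)
    calc (mA + mB) * D ≤ |(mA + mB) * D| := le_abs_self _
      _ = |mA + mB| * |D| := abs_mul _ _
      _ ≤ r * n * |D| := by gcongr
      _ = _ := by ring
  have b4 : 0 ≤ c * (D * n) * D := by
    have : c * (D * n) * D = c * n * D ^ 2 := by ring
    rw [this]; positivity
  have b5 : 2 * (|t| * |D| * n) ≤ (t ^ 2 / 2 + 2 * D ^ 2) * n := by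
    have : 2 * (|t| * |D|) ≤ t ^ 2 / 2 + 2 * D ^ 2 := by
      nlinarith [sq_nonneg (|t| - 2 * |D|), sq_abs t, sq_abs D]
    nlinarith
  have b6 : r * |D| * n ≤ (r ^ 2 / 2 + D ^ 2 / 2) * n := by
    have : r * |D| ≤ r ^ 2 / 2 + D ^ 2 / 2 := by nlinarith [sq_nonneg (r - |D|), sq_abs D]
    exact mul_le_mul_of_nonneg_right this hn.le
  have e6 : τ * n * D = t * n * D + t * (gA + gB) * D - (mA + mB) * D + c * (D * n) * D := by
    rw [e3]; ring
  have e7 : c * n = 2 * r ^ 2 * n + t ^ 2 / 2 * n := by rw [hc]; ring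
  rw [e4]
  nlinarith

/-- **Moment stability of cells.** -/
theorem cell_ineq (hK : IsBody K R) {A B C : Set (E d)} (mA : MeasurableSet A)
    (mB : MeasurableSet B) (mC : MeasurableSet C)
    (hmid : ∀ x ∈ A, ∀ y ∈ B, mid x y ∈ C) (θ : E d) :
    ∫ x in A, ⟪x, θ⟫ ∂(uniformProbOn K) - ∫ x in B, ⟪x, θ⟫ ∂(uniformProbOn K) ≤
      2 * ∫ x in C, wt R x ∂(uniformProbOn K) - ∫ x in A, wt R x ∂(uniformProbOn K)
        - ∫ x in B, wt R x ∂(uniformProbOn K)
        + 5 / 2 * (R * ‖θ‖) ^ 2 * ((uniformProbOn K).real A + (uniformProbOn K).real B)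
        + 5 / 2 * (((uniformProbOn K).real A - (uniformProbOn K).real B) ^ 2 /
          ((uniformProbOn K).real A + (uniformProbOn K).real B)) := by
  have := hK.isProb
  have hR := hK.R_pos
  set ρ := uniformProbOn K with hρ
  have cw : Continuous (wt R : E d → ℝ) := continuous_wt R
  have Iw : Integrable (wt R) ρ := hK.integrable_of_continuous cw
  have Iθ : Integrable (fun x : E d => ⟪x, θ⟫) ρ := hK.integrable_of_continuous (by fun_prop)
  have hw0 : ∀ S : Set (E d), 0 ≤ ∫ x in S, wt R x ∂ρ := fun S =>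
    integral_nonneg_of_ae (ae_restrict_of_ae (hK.ae_norm_le.mono fun x hx => wt_nonneg hR hx))
  have hw1 : ∀ S : Set (E d), ∫ x in S, wt R x ∂ρ ≤ ρ.real S := fun S => by
    calc ∫ x in S, wt R x ∂ρ ≤ ∫ _x in S, (1 : ℝ) ∂ρ :=
          integral_mono Iw.integrableOn (integrable_const _) fun x => wt_le_one R x
      _ = ρ.real S := by simp
  have hm : ∀ S : Set (E d), |∫ x in S, ⟪x, θ⟫ ∂ρ| ≤ R * ‖θ‖ * ρ.real S := fun S => by
    rw [← Real.norm_eq_abs]
    refine norm_setIntegral_le_of_norm_le_const_ae (measure_lt_top _ _)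
      (ae_restrict_of_ae (hK.ae_norm_le.mono fun x hx => ?_))
    exact (norm_inner_le_norm _ _).trans (mul_le_mul_of_nonneg_right hx (norm_nonneg _))
  set a := ρ.real A with ha
  set b := ρ.real B with hb
  have ha0 : 0 ≤ a := measureReal_nonneg
  have hb0 : 0 ≤ b := measureReal_nonneg
  rcases (add_nonneg ha0 hb0).eq_or_lt with hn | hn
  · have ha1 : a = 0 := by linarith
    have hb1 : b = 0 := by linarith
    have h1 := hm A
    have h2 := hm B
    have h3 := hw1 A
    have h4 := hw1 B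
    have h5 := hw0 C
    rw [← ha, ha1] at h1 h3
    rw [← hb, hb1] at h2 h4
    rw [ha1, hb1]
    have h6 := abs_le.1 h1
    have h7 := abs_le.1 h2
    simp only [add_zero, mul_zero, div_zero, neg_zero] at h6 h7 ⊢
    linarith
  set gA := ∫ x in A, wt R x ∂ρ with hgA
  set gB := ∫ x in B, wt R x ∂ρ with hgB
  set uA := ∫ x in A, ⟪x, θ⟫ ∂ρ with huA
  set uB := ∫ x in B, ⟪x, θ⟫ ∂ρ with huB
  set r := R * ‖θ‖ with hr
  set t := (gB - gA) / (a + b) with ht
  set c := 2 * r ^ 2 + t ^ 2 / 2 with hc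
  set τ := (gB - gA + t * (gA + gB) - (uA + uB) + c * (a - b)) / (a + b) with hτ
  refine cell_real ha0 hb0 hn (by positivity) (hw0 A) (hw1 A) (hw0 B) (hw1 B) (hm A) (hm B)
    ht hc hτ ?_
  let f0 : E d → ℝ := fun x => wt R x + ⟪x, θ⟫ - t * wt R x + (τ - c)
  let g0 : E d → ℝ := fun x => wt R x - ⟪x, θ⟫ + t * wt R x - (τ + c)
  have cf : Continuous f0 := by fun_prop
  have cg : Continuous g0 := by fun_prop
  have If : Integrable f0 ρ := hK.integrable_of_continuous cf
  have Ig : Integrable g0 ρ := hK.integrable_of_continuous cg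
  have ef : ∫ x, A.indicator f0 x ∂ρ = gA + uA - t * gA + (τ - c) * a := by
    have I1 : IntegrableOn (fun x => wt R x + ⟪x, θ⟫) A ρ := (Iw.add Iθ).integrableOn
    have I2 : IntegrableOn (fun x => t * wt R x) A ρ := (Iw.const_mul t).integrableOn
    have I3 : IntegrableOn (fun x => wt R x + ⟪x, θ⟫ - t * wt R x) A ρ := I1.sub I2
    rw [integral_indicator mA]
    simp only [f0]
    rw [integral_add I3 (integrable_const _), integral_sub I1 I2,
      integral_add Iw.integrableOn Iθ.integrableOn, integral_const_mul]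
    simp only [integral_const, measureReal_restrict_apply_univ, smul_eq_mul]
    ring
  have eg : ∫ x, B.indicator g0 x ∂ρ = gB - uB + t * gB - (τ + c) * b := by
    have I1 : IntegrableOn (fun x => wt R x - ⟪x, θ⟫) B ρ := (Iw.sub Iθ).integrableOn
    have I2 : IntegrableOn (fun x => t * wt R x) B ρ := (Iw.const_mul t).integrableOn
    have I3 : IntegrableOn (fun x => wt R x - ⟪x, θ⟫ + t * wt R x) B ρ := I1.add I2
    rw [integral_indicator mB]
    simp only [g0]
    rw [integral_sub I3 (integrable_const _), integral_add I1 I2,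
      integral_sub Iw.integrableOn Iθ.integrableOn, integral_const_mul]
    simp only [integral_const, measureReal_restrict_apply_univ, smul_eq_mul]
    ring
  have efg : gA + uA - t * gA + (τ - c) * a = gB - uB + t * gB - (τ + c) * b := by
    have : τ * (a + b) = gB - gA + t * (gA + gB) - (uA + uB) + c * (a - b) := by
      rw [hτ]; field_simp
    linear_combination this
  rw [← integral_indicator mC]
  refine pl_real hK (f := A.indicator f0) (g := B.indicator g0) (cf.measurable.indicator mA)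
    (cg.measurable.indicator mB) (cw.measurable.indicator mC) (If.indicator mA) (Ig.indicator mB)
    (Iw.indicator mC) (fun z hz => indicator_apply_nonneg fun _ => wt_nonneg hR (hK.norm_le z hz))
    ?_ ef.ge (efg.trans eg.symm).le
  intro x hx y hy hfx hgy
  have hxA : x ∈ A := by
    by_contra h; rw [indicator_of_notMem h] at hfx; exact lt_irrefl _ hfx
  have hyB : y ∈ B := by
    by_contra h; rw [indicator_of_notMem h] at hgy; exact lt_irrefl _ hgy
  rw [indicator_of_mem hxA] at hfx ⊢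
  rw [indicator_of_mem hyB] at hgy ⊢
  rw [indicator_of_mem (hmid x hxA y hyB)]
  have hsum : f0 x + g0 y ≤ 2 * wt R (mid x y) := by
    rw [wt_mid hR]
    set s := ‖x - y‖ with hs
    have h1 : ⟪x, θ⟫ - ⟪y, θ⟫ ≤ s * ‖θ‖ := by
      rw [← inner_sub_left]; exact real_inner_le_norm _ _
    have h2 : t * (wt R y - wt R x) ≤ |t| * (s / (2 * R)) := by
      calc t * (wt R y - wt R x) ≤ |t * (wt R y - wt R x)| := le_abs_self _
        _ = |t| * |wt R x - wt R y| := by rw [abs_mul, abs_sub_comm]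
        _ ≤ _ := by
          gcongr
          exact abs_wt_sub hR (hK.norm_le x hx) (hK.norm_le y hy)
    set v := s / (4 * R) with hv
    have h3 : s * ‖θ‖ = 4 * v * r := by rw [hv, hr]; field_simp
    have h4 : s / (2 * R) = 2 * v := by rw [hv]; field_simp; ring
    have h5 : s ^ 2 / (8 * R ^ 2) = 2 * v ^ 2 := by rw [hv]; field_simp; ring
    rw [h5]
    rw [h4] at h2
    rw [h3] at h1
    simp only [f0, g0]
    nlinarith [sq_nonneg (v - 2 * r), sq_nonneg (v - |t|), sq_abs t]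
  nlinarith [sq_nonneg (f0 x - g0 y)]

end Crest.Agent.R082
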