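import Crest.Agent.R082.Strong
import Crest.Agent.R082.Cell

/-!
Row 82: finitely supported targets, their cells, and the one-step comparison.
-/

set_option autoImplicit false

namespace Crest.Agent.R082

open MeasureTheory Crest.AnalysisR.OT Set
open scoped RealInnerProductSpace ENNReal NNReal

variable {d : ℕ} {K : Set (E d)} {R : ℝ}

/-- The finitely supported measure with masses `m` at the points `Y`. -/
noncomputable def dm {ι : Type} [Fintype ι] (m : ι → ℝ) (Y : ι → E d) : Measure (E d) :=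
  ∑ j, ENNReal.ofReal (m j) • Measure.dirac (Y j)

section
variable {ι : Type} [Fintype ι] {m : ι → ℝ} {Y : ι → E d}

theorem dm_apply (m : ι → ℝ) (Y : ι → E d) {s : Set (E d)} (hs : MeasurableSet s) :
    dm m Y s = ∑ j, ENNReal.ofReal (m j) * s.indicator 1 (Y j) := by
  unfold dm
  rw [Measure.coe_finsetSum, Finset.sum_apply]
  refine Finset.sum_congr rfl fun j _ => ?_
  rw [Measure.smul_apply, Measure.dirac_apply' _ hs, smul_eq_mul]

theorem isProb_dm (hm0 : ∀ j, 0 ≤ m j) (hm1 : ∑ j, m j = 1) (Y : ι → E d) :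
    IsProbabilityMeasure (dm m Y) := by
  constructor
  rw [dm_apply m Y MeasurableSet.univ]
  simp only [indicator_univ, Pi.one_apply, mul_one]
  rw [← ENNReal.ofReal_sum_of_nonneg fun j _ => hm0 j, hm1, ENNReal.ofReal_one]

theorem ae_dm (hY : ∀ j, ‖Y j‖ ≤ R) : ∀ᵐ y ∂(dm m Y), ‖y‖ ≤ R := by
  have hs : MeasurableSet {a : E d | ¬ ‖a‖ ≤ R} :=
    (measurableSet_le measurable_norm measurable_const).compl
  rw [ae_iff, dm_apply m Y hs]
  refine Finset.sum_eq_zero fun j _ => ?_
  rw [indicator_of_notMem, mul_zero]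
  simpa using hY j

theorem integral_dm (hm0 : ∀ j, 0 ≤ m j) (Y : ι → E d) (f : E d → ℝ) :
    ∫ y, f y ∂(dm m Y) = ∑ j, m j * f (Y j) := by
  unfold dm
  rw [integral_finsetSum_measure]
  · refine Finset.sum_congr rfl fun j _ => ?_
    rw [integral_smul_measure, integral_dirac, ENNReal.toReal_ofReal (hm0 j), smul_eq_mul]
  · intro j _
    exact (integrable_dirac (by simp)).smul_measure ENNReal.ofReal_ne_top

theorem dm_singleton (hm0 : ∀ j, 0 ≤ m j) (hY : Function.Injective Y) (j : ι) :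
    (dm m Y).real {Y j} = m j := by
  classical
  rw [Measure.real, dm_apply m Y (measurableSet_singleton _), Finset.sum_eq_single j]
  · simp [hm0 j]
  · intro i _ hij
    rw [indicator_of_notMem, mul_zero]
    exact fun h => hij (hY h)
  · simp

end

section
variable {σ σ' : Measure (E d)} {φ ψ φ' ψ' : E d → ℝ} {T T' : E d → E d}

theorem IsBrenier.integral_comp (h : IsBrenier K R σ φ ψ T) {f : E d → ℝ} (hf : Continuous f) :
    ∫ x, f (T x) ∂(uniformProbOn K) = ∫ y, f y ∂σ := by
  rw [← h.mapT, integral_map h.measT.aemeasurable hf.aestronglyMeasurable]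

/-- The integrated duality gap. -/
theorem IsBrenier.gap_eq (hK : IsBody K R) (h : IsBrenier K R σ φ ψ T)
    (h' : IsBrenier K R σ' φ' ψ' T') :
    ∫ x, (φ' x + ψ' (T x) - ⟪x, T x⟫) ∂(uniformProbOn K) =
      (∫ x, φ' x ∂(uniformProbOn K) + ∫ y, ψ' y ∂σ) -
        (∫ x, φ x ∂(uniformProbOn K) + ∫ y, ψ y ∂σ) := by
  have I1 : Integrable (fun x => φ' x + ψ' (T x)) (uniformProbOn K) :=
    (h'.integrable_φ hK).add (h.integrable_ψT hK h')
  rw [integral_sub I1 (h.integrable_inner hK),
    integral_add (h'.integrable_φ hK) (h.integrable_ψT hK h'), h.integral_comp h'.contψ,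
    ← integral_congr_ae h.eqT, integral_add (h.integrable_φ hK) (h.integrable_ψT hK h),
    h.integral_comp h.contψ]

/-- Weak duality. -/
theorem IsBrenier.weak_duality (hK : IsBody K R) (h : IsBrenier K R σ φ ψ T)
    (h' : IsBrenier K R σ' φ' ψ' T') :
    ∫ x, φ x ∂(uniformProbOn K) + ∫ y, ψ y ∂σ ≤ ∫ x, φ' x ∂(uniformProbOn K) + ∫ y, ψ' y ∂σ := by
  rw [← sub_nonneg, ← h.gap_eq hK h']
  exact integral_nonneg_of_ae (h.memT.mono fun x hx => sub_nonneg.2 (h'.feas x _ hx))

end

section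
variable {ι : Type} [Fintype ι] {m : ι → ℝ} {Y : ι → E d} {φ ψ : E d → ℝ} {T : E d → E d}

/-- The cell of the atom `y`. -/
def cell (φ ψ : E d → ℝ) (T : E d → E d) (y : E d) : Set (E d) :=
  {x | T x = y ∧ φ x + ψ (T x) = ⟪x, T x⟫}

theorem IsBrenier.measurableSet_cell {σ : Measure (E d)} (h : IsBrenier K R σ φ ψ T) (y : E d) :
    MeasurableSet (cell φ ψ T y) :=
  (h.measT (measurableSet_singleton y)).inter (measurableSet_eq_fun
    (h.contφ.measurable.add (h.contψ.measurable.comp h.measT)) (measurable_id.inner h.measT))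

theorem IsBrenier.real_cell (h : IsBrenier K R (dm m Y) φ ψ T) (hm0 : ∀ j, 0 ≤ m j)
    (hY : Function.Injective Y) (j : ι) :
    (uniformProbOn K).real (cell φ ψ T (Y j)) = m j := by
  rw [← dm_singleton hm0 hY j, ← h.mapT, map_measureReal_apply h.measT (measurableSet_singleton _)]
  refine measureReal_congr ?_
  filter_upwards [h.eqT] with x hx
  refine propext ⟨fun h1 => h1.1, fun h1 => ⟨h1, hx⟩⟩

theorem IsBrenier.ae_cell (h : IsBrenier K R (dm m Y) φ ψ T) :
    ∀ᵐ x ∂(uniformProbOn K), x ∈ ⋃ j, cell φ ψ T (Y j) := by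
  have h1 : ∀ᵐ y ∂(dm m Y), y ∈ range Y := by
    have hs : MeasurableSet {a | a ∉ range Y} := (finite_range Y).measurableSet.compl
    rw [ae_iff, dm_apply m Y hs]
    refine Finset.sum_eq_zero fun j _ => ?_
    rw [indicator_of_notMem, mul_zero]
    simp
  rw [← h.mapT] at h1
  filter_upwards [ae_of_ae_map h.measT.aemeasurable h1, h.eqT] with x hx hx2
  obtain ⟨j, hj⟩ := hx
  exact mem_iUnion.2 ⟨j, hj.symm, hx2⟩

theorem IsBrenier.integral_eq_sum (h : IsBrenier K R (dm m Y) φ ψ T)
    (hY : Function.Injective Y) {F : E d → ℝ} (hF : Integrable F (uniformProbOn K)) :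
    ∫ x, F x ∂(uniformProbOn K) = ∑ j, ∫ x in cell φ ψ T (Y j), F x ∂(uniformProbOn K) := by
  rw [← integral_iUnion_fintype (fun j => h.measurableSet_cell (Y j)) ?_
    (fun j => hF.integrableOn), ← setIntegral_univ]
  · refine setIntegral_congr_set ?_
    exact (ae_eq_univ.2 (ae_iff.1 h.ae_cell)).symm
  · intro i j hij
    refine disjoint_left.2 fun x hx hy => hij (hY (hx.1.symm.trans hy.1))

/-- Subgradient inequality in the positions of the atoms. -/
theorem IsBrenier.subgrad (hK : IsBody K R) (h : IsBrenier K R (dm m Y) φ ψ T)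
    (hm0 : ∀ j, 0 ≤ m j) (hY : Function.Injective Y) (v : ι → E d) (s : ℝ)
    (hZ : ∀ j, ‖Y j + s • v j‖ ≤ R) {σ' : Measure (E d)} {φ' ψ' : E d → ℝ} {T' : E d → E d}
    (h' : IsBrenier K R σ' φ' ψ' T') :
    (∫ x, φ x ∂(uniformProbOn K) + ∑ j, m j * ψ (Y j)) +
        s * ∑ j, ∫ x in cell φ ψ T (Y j), ⟪x, v j⟫ ∂(uniformProbOn K) ≤
      ∫ x, φ' x ∂(uniformProbOn K) + ∑ j, m j * ψ' (Y j + s • v j) := by
  have := hK.isProb
  rw [h.integral_eq_sum hY (h.integrable_φ hK), h.integral_eq_sum hY (h'.integrable_φ hK),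
    Finset.mul_sum, ← Finset.sum_add_distrib, ← Finset.sum_add_distrib,
    ← Finset.sum_add_distrib]
  refine Finset.sum_le_sum fun j _ => ?_
  have Iv : Integrable (fun x : E d => s * ⟪x, v j⟫) (uniformProbOn K) :=
    hK.integrable_of_continuous (by fun_prop)
  have I1 : Integrable (fun x : E d => φ x + ψ (Y j)) (uniformProbOn K) :=
    (h.integrable_φ hK).add (integrable_const _)
  have I2 : Integrable (fun x : E d => φ' x + ψ' (Y j + s • v j)) (uniformProbOn K) :=
    (h'.integrable_φ hK).add (integrable_const _)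
  have e1 : ∀ (f : E d → ℝ) (c : ℝ), Integrable f (uniformProbOn K) →
      ∫ x in cell φ ψ T (Y j), f x ∂(uniformProbOn K) + m j * c =
        ∫ x in cell φ ψ T (Y j), (f x + c) ∂(uniformProbOn K) := by
    intro f c hf
    rw [integral_add hf.integrableOn (integrable_const _), integral_const,
      measureReal_restrict_apply_univ, h.real_cell hm0 hY, smul_eq_mul]
  rw [e1 _ _ (h.integrable_φ hK), e1 _ _ (h'.integrable_φ hK), ← integral_const_mul,
    ← integral_add I1.integrableOn Iv.integrableOn]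
  refine setIntegral_mono_on (I1.add Iv).integrableOn I2.integrableOn (h.measurableSet_cell _) ?_
  intro x hx
  have h1 := hx.2
  rw [hx.1] at h1
  have h2 := h'.feas x _ (hZ j)
  rw [inner_add_right, real_inner_smul_right] at h2
  linarith

theorem null_hyperplane (hK : IsBody K R) {w : E d} (hw : w ≠ 0) (c : ℝ) :
    uniformProbOn K {x | ⟪x, w⟫ = c} = 0 := by
  refine hK.absCont ?_
  let S : AffineSubspace ℝ (E d) :=
    AffineSubspace.mk' ((c / ‖w‖ ^ 2) • w) (LinearMap.ker (innerSL ℝ w).toLinearMap)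
  have hw2 : ‖w‖ ^ 2 ≠ 0 := by positivity
  have hS : (S : Set (E d)) = {x | ⟪x, w⟫ = c} := by
    ext x
    simp only [S, SetLike.mem_coe, AffineSubspace.mem_mk', LinearMap.mem_ker, vsub_eq_sub,
      ContinuousLinearMap.coe_coe, innerSL_apply_apply, mem_ofPred_eq, inner_sub_right,
      real_inner_smul_right, real_inner_self_eq_norm_sq]
    rw [div_mul_cancel₀ _ hw2, sub_eq_zero, real_inner_comm]
  rw [← hS]
  refine Measure.addHaar_affineSubspace volume S fun htop => ?_
  have h1 : ((c + 1) / ‖w‖ ^ 2) • w ∈ (S : Set (E d)) := by rw [htop]; trivial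
  rw [hS] at h1
  simp only [mem_ofPred_eq, real_inner_smul_left, real_inner_self_eq_norm_sq] at h1
  rw [div_mul_cancel₀ _ hw2] at h1
  linarith

/-- **One-step comparison** of first moments of the cells for two mass vectors. -/
theorem moment_le (hK : IsBody K R) {m' : ι → ℝ} {φ' ψ' : E d → ℝ} {T' : E d → E d}
    (h : IsBrenier K R (dm m Y) φ ψ T) (h' : IsBrenier K R (dm m' Y) φ' ψ' T')
    (hm0 : ∀ j, 0 ≤ m j) (hm0' : ∀ j, 0 ≤ m' j) (hY : Function.Injective Y)
    (hYR : ∀ j, ‖Y j‖ ≤ R) (v : ι → E d) :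
    ∑ j, ∫ x in cell φ ψ T (Y j), ⟪x, v j⟫ ∂(uniformProbOn K) -
        ∑ j, ∫ x in cell φ' ψ' T' (Y j), ⟪x, v j⟫ ∂(uniformProbOn K) ≤
      ∑ j, (5 / 2 * (R * ‖v j‖) ^ 2 * (m j + m' j) + 5 / 2 * ((m j - m' j) ^ 2 / (m j + m' j))) := by
  have := hK.isProb
  let χ : E d → ℝ := fun y => (ψ y + ψ' y) / 2
  let C : ι → Set (E d) := fun j => {z | ∀ i, ⟪z, Y i⟫ - χ (Y i) ≤ ⟪z, Y j⟫ - χ (Y j)}
  have mC : ∀ j, MeasurableSet (C j) := fun j => by
    simp only [C, ofPred_forall]
    exact MeasurableSet.iInter fun i => (isClosed_le (by fun_prop) (by fun_prop)).measurableSet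
  have Iw : Integrable (wt R) (uniformProbOn K) := hK.integrable_of_continuous (continuous_wt R)
  have hC : ∑ j, ∫ x in C j, wt R x ∂(uniformProbOn K) ≤ ∫ x, wt R x ∂(uniformProbOn K) := by
    have hd : Pairwise (Function.onFun (AEDisjoint (uniformProbOn K)) C) := by
      intro i j hij
      refine measure_mono_null ?_ (null_hyperplane hK (w := Y i - Y j)
        (sub_ne_zero.2 fun h => hij (hY h)) (χ (Y i) - χ (Y j)))
      intro z hz
      have h1 := hz.1 j
      have h2 := hz.2 i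
      simp only [mem_ofPred_eq, inner_sub_right]
      linarith
    have e := integral_iUnion_ae (fun j => (mC j).nullMeasurableSet) hd
      (Iw.integrableOn (s := ⋃ j, C j))
    rw [tsum_fintype] at e
    rw [← e]
    exact setIntegral_le_integral Iw (hK.ae_norm_le.mono fun x hx => wt_nonneg hK.R_pos hx)
  have key : ∀ j, ∫ x in cell φ ψ T (Y j), ⟪x, v j⟫ ∂(uniformProbOn K) -
      ∫ x in cell φ' ψ' T' (Y j), ⟪x, v j⟫ ∂(uniformProbOn K) ≤
      2 * ∫ x in C j, wt R x ∂(uniformProbOn K) - ∫ x in cell φ ψ T (Y j), wt R x ∂(uniformProbOn K)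
        - ∫ x in cell φ' ψ' T' (Y j), wt R x ∂(uniformProbOn K) +
        (5 / 2 * (R * ‖v j‖) ^ 2 * (m j + m' j) +
          5 / 2 * ((m j - m' j) ^ 2 / (m j + m' j))) := by
    intro j
    have := cell_ineq hK (h.measurableSet_cell (Y j)) (h'.measurableSet_cell (Y j)) (mC j)
      (by
        intro x hx y hy i
        have h1 := hx.2
        have h2 := hy.2
        rw [hx.1] at h1
        rw [hy.1] at h2
        have h3 := h.feas x _ (hYR i)
        have h4 := h'.feas y _ (hYR i)
        simp only [χ, inner_mid]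
        linarith) (v j)
    rw [h.real_cell hm0 hY, h'.real_cell hm0' hY] at this
    linarith
  have := Finset.sum_le_sum fun j (_ : j ∈ Finset.univ) => key j
  rw [Finset.sum_sub_distrib, Finset.sum_add_distrib, Finset.sum_sub_distrib,
    Finset.sum_sub_distrib, ← Finset.mul_sum, ← h.integral_eq_sum hY Iw,
    ← h'.integral_eq_sum hY Iw] at this
  linarith

end

end Crest.Agent.R082
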