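import Mathlib
import Crest.Agent.R082.Defs

/-!
Row 82: a reverse Poincaré inequality for Brenier maps, by finite differences.
-/

set_option autoImplicit false

namespace Crest.Agent.R082

open MeasureTheory Crest.AnalysisR.OT Set Filter Topology
open scoped RealInnerProductSpace ENNReal NNReal

namespace RevP

variable {d : ℕ} {K : Set (E d)} {R : ℝ}

/-- The indicator function of a set. -/
noncomputable def I (K : Set (E d)) (x : E d) : ℝ := K.indicator (fun _ => (1 : ℝ)) x

theorem I_mul (K : Set (E d)) (f : E d → ℝ) : (fun x => I K x * f x) = K.indicator f := by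
  ext x
  by_cases hx : x ∈ K <;> simp [I, hx]

theorem integrable_I_mul (hK : IsCompact K) {f : E d → ℝ} (hf : Continuous f) :
    Integrable (fun x => I K x * f x) := by
  rw [I_mul, integrable_indicator_iff hK.measurableSet]
  exact hf.continuousOn.integrableOn_compact hK

theorem integrable_I (hK : IsCompact K) : Integrable (I K) := by
  simpa using integrable_I_mul hK (f := fun _ => 1) continuous_const

theorem integral_I (hK : IsCompact K) : ∫ x, I K x = volume.real K := by
  unfold I
  rw [integral_indicator_const _ hK.measurableSet]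
  simp

theorem V_pos (hK : IsBody K R) : 0 < volume.real K :=
  ENNReal.toReal_pos hK.vol_ne_zero hK.vol_ne_top

theorem int_rho (hK : IsBody K R) (f : E d → ℝ) :
    ∫ x, f x ∂(uniformProbOn K) = (volume.real K)⁻¹ * ∫ x, I K x * f x := by
  rw [I_mul, integral_indicator hK.measurableSet, uniformProbOn, integral_smul_measure,
    ENNReal.toReal_inv, smul_eq_mul]
  rfl

theorem pow_le_aux (a h : ℝ) (ha : 0 ≤ a) (h0 : 0 ≤ h) (h1 : h ≤ 1) (n : ℕ) :
    (1 + a * h) ^ n ≤ 1 + h * ((1 + a) ^ n - 1) := by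
  induction n with
  | zero => simp
  | succ n ih =>
    have hA : 1 ≤ (1 + a) ^ n := one_le_pow₀ (by linarith)
    have h2 : 0 ≤ 1 + a * h := by positivity
    have h3 : 0 ≤ a * h * ((1 + a) ^ n - 1) * (1 - h) := by
      have : 0 ≤ (1 + a) ^ n - 1 := by linarith
      have : 0 ≤ 1 - h := by linarith
      positivity
    calc (1 + a * h) ^ (n + 1) = (1 + a * h) ^ n * (1 + a * h) := pow_succ _ _
      _ ≤ (1 + h * ((1 + a) ^ n - 1)) * (1 + a * h) := mul_le_mul_of_nonneg_right ih h2
      _ ≤ 1 + h * ((1 + a) ^ (n + 1) - 1) := by rw [pow_succ]; nlinarith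

theorem exists_shift (hK : IsBody K R) : ∃ β : ℝ, 0 ≤ β ∧ ∀ v : E d, 0 < ‖v‖ → ‖v‖ ≤ 1 →
    ∫ x, |I K (x + v) - I K x| ≤ β * ‖v‖ * volume.real K := by
  obtain ⟨x0, hx0⟩ := hK.int_ne
  obtain ⟨ε, hε, hball⟩ := Metric.mem_nhds_iff.1 (mem_interior_iff_mem_nhds.1 hx0)
  set r := ε / 2 with hr
  have hr0 : 0 < r := by positivity
  have hcb : Metric.closedBall x0 r ⊆ K :=
    (Metric.closedBall_subset_ball (by linarith)).trans hball
  have hA : 1 ≤ (1 + r⁻¹) ^ d := one_le_pow₀ (by simp [hr0.le])
  refine ⟨2 * ((1 + r⁻¹) ^ d - 1), by linarith, fun v hv0 hv1 => ?_⟩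
  set t := r⁻¹ * ‖v‖ with ht
  have ht0 : 0 < t := by positivity
  set H := AffineMap.homothety x0 (1 + t) '' K with hH
  have hHc : IsCompact H := hK.compact.image (AffineMap.homothety_continuous _ _)
  have key : ∀ w : E d, ‖w‖ ≤ ‖v‖ → ∀ x, x + w ∈ K → x ∈ H := by
    intro w hw x hx
    have h1 : x0 - t⁻¹ • w ∈ K := by
      apply hcb
      rw [Metric.mem_closedBall, dist_eq_norm, sub_sub_cancel_left, norm_neg, norm_smul,
        Real.norm_eq_abs, abs_of_pos (inv_pos.2 ht0), inv_mul_le_iff₀ ht0, ht]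
      calc ‖w‖ ≤ ‖v‖ := hw
        _ = r⁻¹ * ‖v‖ * r := by field_simp
    have h2 := hK.convex hx h1 (a := 1 / (1 + t)) (b := t / (1 + t)) (by positivity)
      (by positivity) (by field_simp)
    refine ⟨_, h2, ?_⟩
    rw [AffineMap.homothety_apply, vsub_eq_sub, vadd_eq_add]
    have h3 : (1 + t) ≠ 0 := by positivity
    ext i
    simp only [PiLp.add_apply, PiLp.smul_apply, PiLp.sub_apply, smul_eq_mul]
    field_simp
    ring
  have hvol : volume.real H = (1 + t) ^ d * volume.real K := by
    rw [Measure.real, hH, Measure.addHaar_image_homothety, ENNReal.toReal_mul,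
      ENNReal.toReal_ofReal (abs_nonneg _), finrank_euclideanSpace_fin, abs_of_pos (by positivity)]
    rfl
  have i1 := integrable_I hK.compact
  have i2 := integrable_I hHc
  have i3 : Integrable fun x => I K (x + v) := i1.comp_add_right v
  calc ∫ x, |I K (x + v) - I K x| ≤ ∫ x, ((I H x - I K x) + (I H x - I K (x + v))) := by
        refine integral_mono (i3.sub i1).abs ((i2.sub i1).add (i2.sub i3)) fun x => ?_
        have a1 := key 0 (by simp) x
        have a2 := key v le_rfl x
        rw [add_zero] at a1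
        by_cases h1 : x ∈ K <;> by_cases h2 : x + v ∈ K <;> by_cases h3 : x ∈ H <;>
          simp_all [I]
    _ = 2 * ((1 + t) ^ d - 1) * volume.real K := by
        have j1 : Integrable fun x => I H x - I K x := i2.sub i1
        have j2 : Integrable fun x => I H x - I K (x + v) := i2.sub i3
        rw [integral_add j1 j2, integral_sub i2 i1, integral_sub i2 i3,
          integral_add_right_eq_self (I K) v, integral_I hHc, integral_I hK.compact, hvol]
        ring
    _ ≤ 2 * ((1 + r⁻¹) ^ d - 1) * ‖v‖ * volume.real K := by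
        refine mul_le_mul_of_nonneg_right ?_ (V_pos hK).le
        have := pow_le_aux r⁻¹ ‖v‖ (by positivity) hv0.le hv1 d
        rw [← ht] at this
        nlinarith

theorem shift_A (hK : IsBody K R) {v : E d} {D : ℝ}
    (hD : ∫ x, |I K (x + -v) - I K x| ≤ D * volume.real K) {m : E d → ℝ} (hm : Continuous m)
    {M : ℝ} (hM : ∀ x, |m x| ≤ M) :
    ∫ x, (m (x + v) - m x) ∂(uniformProbOn K) ≤ M * D := by
  have hV := V_pos hK
  have hM0 : 0 ≤ M := (abs_nonneg _).trans (hM 0)
  rw [int_rho hK, inv_mul_le_iff₀ hV]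
  have c1 : Continuous fun x => m (x + v) := by fun_prop
  have i1 := integrable_I_mul hK.compact c1
  have i2 := integrable_I_mul hK.compact hm
  have i3 : Integrable fun x => I K (x + -v) * m x := by
    simpa using i1.comp_add_right (-v)
  have e1 : ∫ x, I K x * m (x + v) = ∫ x, I K (x + -v) * m x := by
    rw [← integral_add_right_eq_self (fun x => I K x * m (x + v)) (-v)]
    simp
  have i4 : Integrable fun x => |I K (x + -v) - I K x| :=
    (((integrable_I hK.compact).comp_add_right (-v)).sub (integrable_I hK.compact)).abs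
  calc ∫ x, I K x * (m (x + v) - m x) = ∫ x, (I K (x + -v) * m x - I K x * m x) := by
        simp only [mul_sub]
        rw [integral_sub i1 i2, integral_sub i3 i2, e1]
    _ ≤ ∫ x, M * |I K (x + -v) - I K x| := by
        refine integral_mono (i3.sub i2) (i4.const_mul M) fun x => ?_
        simp only
        rw [← sub_mul]
        refine (le_abs_self _).trans ?_
        rw [abs_mul, mul_comm]
        exact mul_le_mul_of_nonneg_right (hM x) (abs_nonneg _)
    _ ≤ volume.real K * (M * D) := by
        rw [integral_const_mul]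
        nlinarith [mul_le_mul_of_nonneg_left hD hM0]

theorem shift_B (hK : IsBody K R) {v : E d} {D : ℝ}
    (hD : ∫ x, |I K (x + v) - I K x| ≤ D * volume.real K) {u : E d → ℝ} (hu : Continuous u)
    {L : ℝ} (hL : ∀ x, |u (x + v) - u x| ≤ L) :
    ∫ x, (u (x + v) - u x) ^ 2 ∂(uniformProbOn K) ≤
      4 * ∫ x, u x ^ 2 ∂(uniformProbOn K) + L ^ 2 * D := by
  have hV := V_pos hK
  rw [int_rho hK, int_rho hK, inv_mul_le_iff₀ hV]
  have i1 := integrable_I_mul hK.compact (f := fun x => (u (x + v) - u x) ^ 2) (by fun_prop)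
  have i2 := integrable_I_mul hK.compact (f := fun x => u x ^ 2) (by fun_prop)
  have i3 : Integrable fun x => I K (x + v) * u (x + v) ^ 2 := i2.comp_add_right v
  have i4 : Integrable fun x => |I K (x + v) - I K x| :=
    (((integrable_I hK.compact).comp_add_right v).sub (integrable_I hK.compact)).abs
  calc ∫ x, I K x * (u (x + v) - u x) ^ 2
      ≤ ∫ x, (2 * (I K (x + v) * u (x + v) ^ 2) + 2 * (I K x * u x ^ 2) +
          L ^ 2 * |I K (x + v) - I K x|) := by
        refine integral_mono i1 (((i3.const_mul 2).add (i2.const_mul 2)).add (i4.const_mul _))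
          fun x => ?_
        have a1 : (u (x + v) - u x) ^ 2 ≤ L ^ 2 := by
          rw [← sq_abs]
          exact pow_le_pow_left₀ (abs_nonneg _) (hL x) 2
        by_cases h1 : x ∈ K <;> by_cases h2 : x + v ∈ K <;> simp [I, h1, h2]
        · nlinarith [sq_nonneg (u (x + v) + u x)]
        · nlinarith [sq_nonneg (u x)]
        · positivity
    _ ≤ volume.real K * (4 * ((volume.real K)⁻¹ * ∫ x, I K x * u x ^ 2) + L ^ 2 * D) := by
        have j1 : Integrable fun x => 2 * (I K (x + v) * u (x + v) ^ 2) := i3.const_mul 2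
        have j2 : Integrable fun x => 2 * (I K x * u x ^ 2) := i2.const_mul 2
        have j3 : Integrable fun x => 2 * (I K (x + v) * u (x + v) ^ 2) + 2 * (I K x * u x ^ 2) :=
          j1.add j2
        rw [integral_add j3 (i4.const_mul _), integral_add j1 j2, integral_const_mul,
          integral_const_mul, integral_const_mul,
          integral_add_right_eq_self (fun x => I K x * u x ^ 2) v]
        have : volume.real K * (4 * ((volume.real K)⁻¹ * ∫ x, I K x * u x ^ 2)) =
            4 * ∫ x, I K x * u x ^ 2 := by field_simp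
        rw [mul_add, this]
        nlinarith [mul_le_mul_of_nonneg_left hD (sq_nonneg L)]

theorem integrable_of_cont {μ : Measure (E d)} [IsFiniteMeasure μ] {R : ℝ}
    (hμ : ∀ᵐ y ∂μ, ‖y‖ ≤ R) {f : E d → ℝ} (hf : Continuous f) : Integrable f μ := by
  obtain ⟨C, hC⟩ := (isCompact_closedBall (0 : E d) R).exists_bound_of_continuousOn
    hf.continuousOn
  refine Integrable.mono' (integrable_const C) hf.aestronglyMeasurable ?_
  filter_upwards [hμ] with y hy
  exact hC y (by simpa using hy)

theorem gap_le (hK : IsBody K R) {v : E d} {D : ℝ}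
    (hD : ∫ x, |I K (x + -v) - I K x| ≤ D * volume.real K) {φ : E d → ℝ}
    (hφ : ∀ x x', |φ x - φ x'| ≤ R * ‖x - x'‖) :
    ∫ x, (φ (x + v) + φ (x - v) - 2 * φ x) ∂(uniformProbOn K) ≤ R * ‖v‖ * D := by
  have cφ : Continuous φ := IsBrenier.continuous_of_lip hφ
  have := shift_A hK hD (m := fun x => φ x - φ (x - v)) (by fun_prop) (M := R * ‖v‖)
    (fun x => by simpa using hφ x (x - v))
  refine le_trans (le_of_eq ?_) this
  refine integral_congr_ae (Filter.Eventually.of_forall fun x => ?_)
  simp only [add_sub_cancel_right]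
  ring

theorem dir_le (hK : IsBody K R) {v : E d} {D : ℝ}
    (hD : ∫ x, |I K (x + v) - I K x| ≤ D * volume.real K)
    (hD' : ∫ x, |I K (x + -v) - I K x| ≤ D * volume.real K)
    {σ σ' : Measure (E d)} {φ ψ φ' ψ' : E d → ℝ} {T T' : E d → E d}
    (h : IsBrenier K R σ φ ψ T) (h' : IsBrenier K R σ' φ' ψ' T') (c : ℝ) :
    ∫ x, ⟪v, T x - T' x⟫ ^ 2 ∂(uniformProbOn K) ≤
      8 * ∫ x, (φ x - φ' x - c) ^ 2 ∂(uniformProbOn K) + 16 * (R * ‖v‖) ^ 2 * D := by
  have := hK.isProb
  have hρ := hK.ae_norm_le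
  have hR := hK.R_pos
  have cφ := h.contφ
  have cφ' := h'.contφ
  have g1 := gap_le hK hD' h.lipφ
  have g2 := gap_le hK hD' h'.lipφ
  have p1 := shift_B hK hD (u := fun x => φ x - φ' x - c) (by fun_prop) (L := 2 * (R * ‖v‖))
    (fun x => by
      have a1 := abs_le.1 (h.lipφ (x + v) x)
      have a2 := abs_le.1 (h'.lipφ (x + v) x)
      rw [add_sub_cancel_left] at a1 a2
      rw [abs_le]
      constructor <;> linarith [a1.1, a1.2, a2.1, a2.2])
  have i1 : Integrable (fun x => ((φ (x + v) - φ' (x + v) - c) - (φ x - φ' x - c)) ^ 2)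
    (uniformProbOn K) := integrable_of_cont hρ (by fun_prop)
  have i2 : Integrable (fun x => φ (x + v) + φ (x - v) - 2 * φ x) (uniformProbOn K) :=
    integrable_of_cont hρ (by fun_prop)
  have i3 : Integrable (fun x => φ' (x + v) + φ' (x - v) - 2 * φ' x) (uniformProbOn K) :=
    integrable_of_cont hρ (by fun_prop)
  have hRv : 0 ≤ R * ‖v‖ := by positivity
  calc ∫ x, ⟪v, T x - T' x⟫ ^ 2 ∂(uniformProbOn K)
      ≤ ∫ x, (2 * ((φ (x + v) - φ' (x + v) - c) - (φ x - φ' x - c)) ^ 2 +
          (4 * (R * ‖v‖) * (φ (x + v) + φ (x - v) - 2 * φ x) +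
            4 * (R * ‖v‖) * (φ' (x + v) + φ' (x - v) - 2 * φ' x))) ∂(uniformProbOn K) := by
        refine integral_mono_of_nonneg (Filter.Eventually.of_forall fun x => by positivity)
          ((i1.const_mul 2).add ((i2.const_mul _).add (i3.const_mul _))) ?_
        filter_upwards [h.memT, h.eqT, h'.memT, h'.eqT] with x m1 e1 m2 e2
        have a1 := h.feas (x + v) (T x) m1
        have a2 := h.feas (x - v) (T x) m1
        have a3 := h'.feas (x + v) (T' x) m2
        have a4 := h'.feas (x - v) (T' x) m2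
        rw [inner_add_left] at a1 a3
        rw [inner_sub_left] at a2 a4
        have b1 := abs_le.1 (h.lipφ (x + v) x)
        have b2 := abs_le.1 (h'.lipφ (x + v) x)
        have b3 := abs_le.1 (h.lipφ (x - v) x)
        have b4 := abs_le.1 (h'.lipφ (x - v) x)
        rw [add_sub_cancel_left] at b1 b2
        rw [sub_sub_cancel_left, norm_neg] at b3 b4
        rw [inner_sub_right]
        set a := ⟪v, T x⟫ - ⟪v, T' x⟫ with ha
        set p := (φ (x + v) - φ' (x + v) - c) - (φ x - φ' x - c) with hp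
        set g := φ (x + v) + φ (x - v) - 2 * φ x with hg
        set g' := φ' (x + v) + φ' (x - v) - 2 * φ' x with hg'
        have k1 : a - p ≤ g' := by linarith
        have k2 : p - a ≤ g := by linarith
        have k3 : 0 ≤ g := by linarith
        have k4 : 0 ≤ g' := by linarith
        have k5 : g ≤ 2 * (R * ‖v‖) := by linarith [b1.2, b3.2]
        have k6 : g' ≤ 2 * (R * ‖v‖) := by linarith [b2.2, b4.2]
        have k7 : (a - p) ^ 2 ≤ g ^ 2 + g' ^ 2 := by
          rcases le_total 0 (a - p) with k | k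
          · nlinarith
          · nlinarith
        have k8 : g ^ 2 ≤ 2 * (R * ‖v‖) * g := by nlinarith
        have k9 : g' ^ 2 ≤ 2 * (R * ‖v‖) * g' := by nlinarith
        nlinarith [sq_nonneg (a - 2 * p)]
    _ ≤ _ := by
        have j1 : Integrable (fun x => 4 * (R * ‖v‖) * (φ (x + v) + φ (x - v) - 2 * φ x))
          (uniformProbOn K) := i2.const_mul _
        have j2 : Integrable (fun x => 4 * (R * ‖v‖) * (φ' (x + v) + φ' (x - v) - 2 * φ' x))
          (uniformProbOn K) := i3.const_mul _
        have j3 : Integrable (fun x => 4 * (R * ‖v‖) * (φ (x + v) + φ (x - v) - 2 * φ x) +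
          4 * (R * ‖v‖) * (φ' (x + v) + φ' (x - v) - 2 * φ' x)) (uniformProbOn K) := j1.add j2
        rw [integral_add (i1.const_mul 2) j3, integral_add j1 j2, integral_const_mul,
          integral_const_mul, integral_const_mul]
        nlinarith [mul_le_mul_of_nonneg_left g1 hRv, mul_le_mul_of_nonneg_left g2 hRv]

end RevP

open RevP

theorem reverse_poincare {d : ℕ} {K : Set (E d)} {R : ℝ} (hK : IsBody K R) :
    ∃ C : ℝ, 0 ≤ C ∧ ∀ (σ σ' : Measure (E d)) (φ ψ φ' ψ' : E d → ℝ) (T T' : E d → E d),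
      IsBrenier K R σ φ ψ T → IsBrenier K R σ' φ' ψ' T' → ∀ c h : ℝ, 0 < h → h ≤ 1 →
      ∫ x, ‖T x - T' x‖ ^ 2 ∂(uniformProbOn K) ≤
        C * ((∫ x, (φ x - φ' x - c) ^ 2 ∂(uniformProbOn K)) / h ^ 2 + h) := by
  have := hK.isProb
  obtain ⟨β, hβ, hD⟩ := exists_shift hK
  refine ⟨d * (8 + 16 * R ^ 2 * β), by positivity, ?_⟩
  intro σ σ' φ ψ φ' ψ' T T' hB hB' c h h0 h1
  set U := ∫ x, (φ x - φ' x - c) ^ 2 ∂(uniformProbOn K) with hU
  have hU0 : 0 ≤ U := integral_nonneg fun x => by positivity
  have hi : ∀ i : Fin d, Integrable (fun x => ((T x - T' x) i) ^ 2) (uniformProbOn K) := by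
    intro i
    have m : Measurable fun x => ((T x - T' x) i) ^ 2 := by
      have c1 : Continuous fun y : E d => (y i) ^ 2 := by fun_prop
      exact c1.measurable.comp (hB.measT.sub hB'.measT)
    refine Integrable.mono' (integrable_const ((2 * R) ^ 2)) m.aestronglyMeasurable ?_
    filter_upwards [hB.memT, hB'.memT] with x m1 m2
    have a1 := PiLp.norm_apply_le (T x - T' x) i
    have a2 := norm_sub_le (T x) (T' x)
    rw [norm_pow]
    exact pow_le_pow_left₀ (norm_nonneg _) (by linarith) 2
  have key : ∀ i : Fin d, ∫ x, ((T x - T' x) i) ^ 2 ∂(uniformProbOn K) ≤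
      (8 + 16 * R ^ 2 * β) * (U / h ^ 2 + h) := by
    intro i
    set v : E d := EuclideanSpace.single i h with hv
    have hn : ‖v‖ = h := by rw [hv, PiLp.norm_single, Real.norm_eq_abs, abs_of_pos h0]
    have d1 := hD v (by rw [hn]; exact h0) (by rw [hn]; exact h1)
    have d2 := hD (-v) (by rw [norm_neg, hn]; exact h0) (by rw [norm_neg, hn]; exact h1)
    rw [norm_neg] at d2
    have k := dir_le hK d1 d2 hB hB' c
    have e : ∀ x, ⟪v, T x - T' x⟫ ^ 2 = h ^ 2 * ((T x - T' x) i) ^ 2 := by
      intro x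
      rw [hv, EuclideanSpace.inner_single_left]
      simp only [conj_trivial]
      ring
    simp only [e] at k
    rw [integral_const_mul, hn, ← hU] at k
    have h2 : 0 < h ^ 2 := by positivity
    have k2 : ∫ x, ((T x - T' x) i) ^ 2 ∂(uniformProbOn K) ≤ 8 * (U / h ^ 2) + 16 * R ^ 2 * β * h := by
      refine le_of_mul_le_mul_left ?_ h2
      calc _ ≤ _ := k
        _ = _ := by field_simp
    have k3 : 0 ≤ 16 * R ^ 2 * β * (U / h ^ 2) := by positivity
    nlinarith
  calc ∫ x, ‖T x - T' x‖ ^ 2 ∂(uniformProbOn K)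
      = ∑ i, ∫ x, ((T x - T' x) i) ^ 2 ∂(uniformProbOn K) := by
        rw [← integral_finsetSum _ fun i _ => hi i]
        simp only [EuclideanSpace.real_norm_sq_eq]
    _ ≤ ∑ _i : Fin d, (8 + 16 * R ^ 2 * β) * (U / h ^ 2 + h) := Finset.sum_le_sum fun i _ => key i
    _ = _ := by simp [mul_assoc]

end Crest.Agent.R082
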