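import Crest.Agent.R082.Stab
import Crest.Agent.R082.RevPoincare

/-!
Row 82: stability of Brenier maps, real valued form.
-/

set_option autoImplicit false

namespace Crest.Agent.R082

open MeasureTheory Crest.AnalysisR.OT Set
open scoped RealInnerProductSpace ENNReal NNReal

variable {d : ℕ} {K : Set (E d)} {R : ℝ}

/-- Stability of potentials up to an arbitrarily small error. -/
theorem pot_stab (hK : IsBody K R) {π : Measure (E d × E d)} [IsProbabilityMeasure π]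
    (h1R : ∀ᵐ p ∂π, ‖p.1‖ ≤ R) (h2R : ∀ᵐ p ∂π, ‖p.2‖ ≤ R)
    {φ0 ψ0 φ1 ψ1 : E d → ℝ} {T0 T1 : E d → E d}
    (h0 : IsBrenier K R (π.map Prod.fst) φ0 ψ0 T0) (h1 : IsBrenier K R (π.map Prod.snd) φ1 ψ1 T1)
    {η : ℝ} (hη : 0 < η) :
    ∃ c : ℝ, ∫ x, (φ0 x - φ1 x - c) ^ 2 ∂(uniformProbOn K) ≤
      6 * Cd R * ∫ p, ‖p.1 - p.2‖ ^ 2 ∂π + (12 * Cs R * R * η + 24 * Cd R * η ^ 2) := by
  have hR := hK.R_pos
  obtain ⟨ι, _, e, κ, hinj, heS, hκ, hd⟩ := exists_quant
    (S := Metric.closedBall (0 : E d) R ×ˢ Metric.closedBall (0 : E d) R)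
    ((isCompact_closedBall _ _).prod (isCompact_closedBall _ _))
    ⟨(0, 0), Metric.mem_closedBall_self hR.le, Metric.mem_closedBall_self hR.le⟩ hη
  let y : ι → E d := fun j => (e j).1
  let z : ι → E d := fun j => (e j).2
  let m : ι → ℝ := fun j => π.real (κ ⁻¹' {j})
  have hy : ∀ j, ‖y j‖ ≤ R := fun j => by simpa using (heS j).1
  have hz : ∀ j, ‖z j‖ ≤ R := fun j => by simpa using (heS j).2
  have hm0 : ∀ j, 0 ≤ m j := fun j => measureReal_nonneg
  have mcomp : ∀ Y : ι → E d, Measurable fun p => Y (κ p) := by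
    intro Y
    let _ : MeasurableSpace ι := ⊤
    have : DiscreteMeasurableSpace ι := ⟨fun _ => trivial⟩
    exact (Measurable.of_discrete (f := Y)).comp (measurable_to_countable' hκ)
  have hint : ∀ (Y : ι → E d) (f : E d → ℝ), Continuous f →
      ∑ j, m j * f (Y j) = ∫ p, f (Y (κ p)) ∂π := by
    intro Y f hf
    rw [← integral_dm hm0, ← map_eq_dm π hκ Y,
      integral_map (mcomp Y).aemeasurable hf.aestronglyMeasurable]
  have hm1 : ∑ j, m j = 1 := by
    simpa using hint y (fun _ => 1) continuous_const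
  have hclose : ∀ᵐ p ∂π, ‖p.1 - y (κ p)‖ ≤ η ∧ ‖p.2 - z (κ p)‖ ≤ η := by
    filter_upwards [h1R, h2R] with p a b
    have := hd p ⟨by simpa using a, by simpa using b⟩
    rw [Prod.dist_eq, max_lt_iff, dist_eq_norm, dist_eq_norm] at this
    exact ⟨this.1.le, this.2.le⟩
  have := isProb_dm hm0 hm1 y
  have := isProb_dm hm0 hm1 z
  obtain ⟨φy, ψy, Ty, hy'⟩ := exists_isBrenier hK (dm m y) (ae_dm hy)
  obtain ⟨φz, ψz, Tz, hz'⟩ := exists_isBrenier hK (dm m z) (ae_dm hz)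
  obtain ⟨c2, hc2⟩ := disc_stab hK hm0 hm1 hy hz
    (fun i j a b => hinj (Prod.ext a b)) hy' hz'
  rw [← map_eq_dm π hκ y] at hy'
  rw [← map_eq_dm π hκ z] at hz'
  obtain ⟨c1, hc1⟩ := weak_stab hK measurable_fst (mcomp y) h1R
    (Filter.Eventually.of_forall fun p => hy _) (hclose.mono fun p hp => hp.1) h0 hy'
  obtain ⟨c3, hc3⟩ := weak_stab hK (mcomp z) measurable_snd
    (Filter.Eventually.of_forall fun p => hz _) h2R
    (hclose.mono fun p hp => by rw [norm_sub_rev]; exact hp.2) hz' h1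
  have IW : Integrable (fun p : E d × E d => ‖p.1 - p.2‖ ^ 2) π := by
    refine Integrable.of_bound (by fun_prop) ((2 * R) ^ 2) ?_
    filter_upwards [h1R, h2R] with p a b
    rw [Real.norm_eq_abs, abs_of_nonneg (sq_nonneg _)]
    exact pow_le_pow_left₀ (norm_nonneg _) ((norm_sub_le _ _).trans (by linarith)) 2
  have hW : ∑ j, m j * ‖z j - y j‖ ^ 2 ≤ 2 * ∫ p, ‖p.1 - p.2‖ ^ 2 ∂π + 8 * η ^ 2 := by
    rw [hint (fun j => z j - y j) (fun w => ‖w‖ ^ 2) (by fun_prop)]
    have I2 : Integrable (fun p : E d × E d => 2 * ‖p.1 - p.2‖ ^ 2 + 8 * η ^ 2) π :=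
      (IW.const_mul 2).add (integrable_const _)
    refine (integral_mono_of_nonneg (Filter.Eventually.of_forall fun p => sq_nonneg _) I2
      (hclose.mono fun p hp => ?_)).trans (le_of_eq ?_)
    · have a : ‖z (κ p) - y (κ p)‖ ≤ ‖p.1 - p.2‖ + 2 * η := by
        have e : z (κ p) - y (κ p) = (p.1 - y (κ p)) - (p.2 - z (κ p)) - (p.1 - p.2) := by abel
        rw [e]
        refine (norm_sub_le _ _).trans ?_
        have := norm_sub_le (p.1 - y (κ p)) (p.2 - z (κ p))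
        linarith [hp.1, hp.2]
      have b := pow_le_pow_left₀ (norm_nonneg _) a 2
      nlinarith [sq_nonneg (‖p.1 - p.2‖ - 2 * η)]
    · rw [integral_add (IW.const_mul 2) (integrable_const _), integral_const_mul]
      simp
  refine ⟨c1 + c2 + c3, ?_⟩
  have cφ0 := h0.contφ
  have cφ1 := h1.contφ
  have cφy := hy'.contφ
  have cφz := hz'.contφ
  have J1 : Integrable (fun x => 3 * (φ0 x - φy x - c1) ^ 2) (uniformProbOn K) :=
    hK.integrable_of_continuous (by fun_prop)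
  have J2 : Integrable (fun x => 3 * (φy x - φz x - c2) ^ 2) (uniformProbOn K) :=
    hK.integrable_of_continuous (by fun_prop)
  have J3 : Integrable (fun x => 3 * (φz x - φ1 x - c3) ^ 2) (uniformProbOn K) :=
    hK.integrable_of_continuous (by fun_prop)
  have J12 : Integrable (fun x => 3 * (φ0 x - φy x - c1) ^ 2 + 3 * (φy x - φz x - c2) ^ 2)
    (uniformProbOn K) := J1.add J2
  have J : Integrable (fun x => 3 * (φ0 x - φy x - c1) ^ 2 + 3 * (φy x - φz x - c2) ^ 2 +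
    3 * (φz x - φ1 x - c3) ^ 2) (uniformProbOn K) := J12.add J3
  refine (integral_mono_of_nonneg (Filter.Eventually.of_forall fun p => sq_nonneg _) J
      (Filter.Eventually.of_forall fun x => ?_)).trans ?_
  · nlinarith [sq_nonneg ((φ0 x - φy x - c1) - (φy x - φz x - c2)),
      sq_nonneg ((φ0 x - φy x - c1) - (φz x - φ1 x - c3)),
      sq_nonneg ((φy x - φz x - c2) - (φz x - φ1 x - c3))]
  · rw [integral_add J12 J3, integral_add J1 J2, integral_const_mul, integral_const_mul,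
      integral_const_mul]
    have := mul_le_mul_of_nonneg_left hW (Cd_nonneg R)
    nlinarith

/-- Stability of Brenier maps, with a free scale `h`. -/
theorem map_stab (hK : IsBody K R) : ∃ C : ℝ, 0 ≤ C ∧ ∀ (π : Measure (E d × E d))
    [IsProbabilityMeasure π], (∀ᵐ p ∂π, ‖p.1‖ ≤ R) → (∀ᵐ p ∂π, ‖p.2‖ ≤ R) →
    ∀ (φ0 ψ0 φ1 ψ1 : E d → ℝ) (T0 T1 : E d → E d), IsBrenier K R (π.map Prod.fst) φ0 ψ0 T0 →
      IsBrenier K R (π.map Prod.snd) φ1 ψ1 T1 →
      ∫ x, ‖T0 x - T1 x‖ ^ 2 ∂(uniformProbOn K) ≤ C * (∫ p, ‖p.1 - p.2‖ ^ 2 ∂π) ^ (1 / 3 : ℝ) := by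
  obtain ⟨C, hC, hrp⟩ := reverse_poincare hK
  have hR := hK.R_pos
  have hCd := Cd_nonneg R
  have hCs := Cs_pos R
  set A : ℝ := (4 * R ^ 2) ^ (1 / 3 : ℝ) with hA
  have hA0 : 0 < A := by positivity
  refine ⟨C * (6 * Cd R * A ^ 2 + 1 / A), by positivity, ?_⟩
  intro π _ h1R h2R φ0 ψ0 φ1 ψ1 T0 T1 h0 h1
  set W := ∫ p, ‖p.1 - p.2‖ ^ 2 ∂π with hW
  have hW0 : 0 ≤ W := integral_nonneg fun p => sq_nonneg _
  have hW1 : W ≤ 4 * R ^ 2 := by
    have := norm_integral_le_of_norm_le_const (μ := π)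
      (f := fun p : E d × E d => ‖p.1 - p.2‖ ^ 2) (C := (2 * R) ^ 2) (by
        filter_upwards [h1R, h2R] with p a b
        rw [Real.norm_eq_abs, abs_of_nonneg (sq_nonneg _)]
        exact pow_le_pow_left₀ (norm_nonneg _) ((norm_sub_le _ _).trans (by linarith)) 2)
    rw [Real.norm_eq_abs, abs_of_nonneg hW0] at this
    simp only [probReal_univ, mul_one] at this
    linarith
  have step : ∀ h : ℝ, 0 < h → h ≤ 1 →
      ∫ x, ‖T0 x - T1 x‖ ^ 2 ∂(uniformProbOn K) ≤ C * (6 * Cd R * W / h ^ 2 + h) := by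
    intro h hh0 hh1
    have lim : Filter.Tendsto (fun η : ℝ => C * ((6 * Cd R * W +
        (12 * Cs R * R * η + 24 * Cd R * η ^ 2)) / h ^ 2 + h)) (nhdsWithin 0 (Ioi 0))
        (nhds (C * ((6 * Cd R * W + (12 * Cs R * R * 0 + 24 * Cd R * 0 ^ 2)) / h ^ 2 + h))) :=
      (Continuous.tendsto (by fun_prop) 0).mono_left nhdsWithin_le_nhds
    have := ge_of_tendsto lim (by
      filter_upwards [self_mem_nhdsWithin] with η hη
      obtain ⟨c, hc⟩ := pot_stab hK h1R h2R h0 h1 hη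
      refine (hrp _ _ _ _ _ _ _ _ h0 h1 c h hh0 hh1).trans ?_
      gcongr)
    simpa using this
  set w := W ^ (1 / 3 : ℝ) with hw
  have hw3 : w ^ 3 = W := by
    rw [hw, ← Real.rpow_natCast, ← Real.rpow_mul hW0]; norm_num
  have hw0 : 0 ≤ w := by positivity
  have hwA : w ≤ A := Real.rpow_le_rpow hW0 hW1 (by norm_num)
  rcases hw0.eq_or_lt with hz | hz
  · have hWz : W = 0 := by rw [← hw3, ← hz]; norm_num
    rw [← hz, mul_zero]
    have lim : Filter.Tendsto (fun h : ℝ => C * h) (nhdsWithin 0 (Ioi 0)) (nhds (C * 0)) :=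
      (Continuous.tendsto (by fun_prop) 0).mono_left nhdsWithin_le_nhds
    have := ge_of_tendsto lim (by
      filter_upwards [Ioc_mem_nhdsGT (zero_lt_one' ℝ)] with h hh
      have := step h hh.1 hh.2
      rw [hWz] at this
      simpa using this)
    simpa using this
  · refine (step (w / A) (by positivity) ((div_le_one hA0).2 hwA)).trans (le_of_eq ?_)
    rw [← hw3]
    field_simp

end Crest.Agent.R082
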