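import Crest.Agent.R082.Defs
import Crest.Agent.Lib.PL.PrekopaLeindler

/-!
Row 82: the Prékopa–Leindler inequality for the uniform measure on a convex body, real valued form.
-/

set_option autoImplicit false

namespace Crest.Agent.R082

open MeasureTheory Crest.AnalysisR.OT Set
open scoped RealInnerProductSpace ENNReal NNReal

variable {d : ℕ} {K : Set (E d)} {R : ℝ}

/-- The midpoint, written as it appears in the Prékopa–Leindler inequality. -/
noncomputable def mid (x y : E d) : E d := (1 / 2 : ℝ) • x + (1 / 2 : ℝ) • y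

theorem IsBody.mid_mem (hK : IsBody K R) {x y : E d} (hx : x ∈ K) (hy : y ∈ K) : mid x y ∈ K :=
  hK.convex hx hy (by norm_num) (by norm_num) (by norm_num)

theorem lintegral_unif (hK : IsBody K R) (F : E d → ℝ≥0∞) :
    ∫⁻ x, F x ∂(uniformProbOn K) = (volume K)⁻¹ * ∫⁻ x, K.indicator F x := by
  unfold uniformProbOn
  rw [lintegral_smul_measure, lintegral_indicator hK.measurableSet, smul_eq_mul]

theorem pl_unif (hK : IsBody K R) {F G H : E d → ℝ≥0∞} (hF : Measurable F) (hG : Measurable G)
    (hH : Measurable H)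
    (hyp : ∀ x ∈ K, ∀ y ∈ K, F x ^ (1 / 2 : ℝ) * G y ^ (1 / 2 : ℝ) ≤ H (mid x y)) :
    (∫⁻ x, F x ∂(uniformProbOn K)) ^ (1 / 2 : ℝ) * (∫⁻ x, G x ∂(uniformProbOn K)) ^ (1 / 2 : ℝ)
      ≤ ∫⁻ x, H x ∂(uniformProbOn K) := by
  have h2 : (0 : ℝ) < 1 / 2 := by norm_num
  have key := Crest.Agent.Lib.PL.prekopa_leindler h2 h2 (by norm_num) (f := K.indicator F)
    (g := K.indicator G) (h := K.indicator H) (hF.indicator hK.measurableSet)
    (hG.indicator hK.measurableSet) (hH.indicator hK.measurableSet) (by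
      intro x y
      by_cases hx : x ∈ K
      · by_cases hy : y ∈ K
        · have := hK.mid_mem hx hy
          rw [indicator_of_mem hx, indicator_of_mem hy]
          change _ ≤ K.indicator H (mid x y)
          rw [indicator_of_mem this]
          exact hyp x hx y hy
        · rw [indicator_of_notMem hy, ENNReal.zero_rpow_of_pos h2, mul_zero]; exact zero_le
      · rw [indicator_of_notMem hx, ENNReal.zero_rpow_of_pos h2, zero_mul]; exact zero_le)
  rw [lintegral_unif hK, lintegral_unif hK, lintegral_unif hK,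
    ENNReal.mul_rpow_of_nonneg _ _ h2.le, ENNReal.mul_rpow_of_nonneg _ _ h2.le, mul_mul_mul_comm,
    ← ENNReal.rpow_add_of_nonneg _ _ h2.le h2.le]
  norm_num
  norm_num at key
  exact mul_le_mul_right key _

theorem ofReal_integral_le {α : Type*} [MeasurableSpace α] {μ : Measure α} {f : α → ℝ}
    (hf : Integrable f μ) : ENNReal.ofReal (∫ x, f x ∂μ) ≤ ∫⁻ x, ENNReal.ofReal (f x) ∂μ := by
  have h1 : ∫ x, f x ∂μ ≤ ∫ x, max (f x) 0 ∂μ :=
    integral_mono hf (hf.sup (integrable_zero _ _ _)) fun x => le_max_left _ _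
  refine (ENNReal.ofReal_le_ofReal h1).trans (le_of_eq ?_)
  rw [ofReal_integral_eq_lintegral_ofReal (f := fun x => max (f x) 0)
    (hf.sup (integrable_zero _ _ _)) (Filter.Eventually.of_forall fun x => le_max_right _ _)]
  refine lintegral_congr fun x => ?_
  simp

/-- Real valued Prékopa–Leindler inequality for the uniform measure on a convex body. -/
theorem pl_real (hK : IsBody K R) {f g h : E d → ℝ} (hf : Measurable f) (hg : Measurable g)
    (hh : Measurable h) (If : Integrable f (uniformProbOn K)) (Ig : Integrable g (uniformProbOn K))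
    (Ih : Integrable h (uniformProbOn K)) (h0 : ∀ z ∈ K, 0 ≤ h z)
    (hyp : ∀ x ∈ K, ∀ y ∈ K, 0 < f x → 0 < g y → f x * g y ≤ h (mid x y) ^ 2)
    {X : ℝ} (hX1 : X ≤ ∫ x, f x ∂(uniformProbOn K)) (hX2 : X ≤ ∫ x, g x ∂(uniformProbOn K)) :
    X ≤ ∫ x, h x ∂(uniformProbOn K) := by
  have h2 : (0 : ℝ) < 1 / 2 := by norm_num
  have hae : 0 ≤ᵐ[uniformProbOn K] h := hK.ae_mem.mono fun z hz => h0 z hz
  have key := pl_unif hK (F := fun x => ENNReal.ofReal (f x)) (G := fun x => ENNReal.ofReal (g x))
    (H := fun x => ENNReal.ofReal (h x)) hf.ennreal_ofReal hg.ennreal_ofReal hh.ennreal_ofReal (by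
      intro x hx y hy
      rcases le_or_gt (f x) 0 with hfx | hfx
      · rw [ENNReal.ofReal_of_nonpos hfx, ENNReal.zero_rpow_of_pos h2, zero_mul]; exact zero_le
      rcases le_or_gt (g y) 0 with hgy | hgy
      · rw [ENNReal.ofReal_of_nonpos hgy, ENNReal.zero_rpow_of_pos h2, mul_zero]; exact zero_le
      have hm := h0 _ (hK.mid_mem hx hy)
      rw [← ENNReal.mul_rpow_of_nonneg _ _ h2.le, ← ENNReal.ofReal_mul hfx.le]
      calc ENNReal.ofReal (f x * g y) ^ (1 / 2 : ℝ)
          ≤ ENNReal.ofReal (h (mid x y) ^ 2) ^ (1 / 2 : ℝ) := by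
            gcongr
            exact hyp x hx y hy hfx hgy
        _ = ENNReal.ofReal (h (mid x y)) := by
            rw [ENNReal.ofReal_pow hm, ← ENNReal.rpow_natCast, ← ENNReal.rpow_mul]
            norm_num)
  rw [← ofReal_integral_eq_lintegral_ofReal Ih hae] at key
  have e1 : ENNReal.ofReal X ≤ ∫⁻ x, ENNReal.ofReal (f x) ∂(uniformProbOn K) :=
    (ENNReal.ofReal_le_ofReal hX1).trans (ofReal_integral_le If)
  have e2 : ENNReal.ofReal X ≤ ∫⁻ x, ENNReal.ofReal (g x) ∂(uniformProbOn K) :=
    (ENNReal.ofReal_le_ofReal hX2).trans (ofReal_integral_le Ig)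
  have e3 : ENNReal.ofReal X ≤ ENNReal.ofReal (∫ x, h x ∂(uniformProbOn K)) := by
    refine le_trans ?_ key
    calc ENNReal.ofReal X = ENNReal.ofReal X ^ (1 / 2 : ℝ) * ENNReal.ofReal X ^ (1 / 2 : ℝ) := by
          rw [← ENNReal.rpow_add_of_nonneg _ _ h2.le h2.le]; norm_num
      _ ≤ _ := by gcongr
  exact (ENNReal.ofReal_le_ofReal_iff (integral_nonneg_of_ae hae)).1 e3

/-- A measurable function that is a.e. bounded is integrable for the uniform probability. -/
theorem IsBody.integrable_of_bdd (hK : IsBody K R) {F : Type*} [NormedAddCommGroup F]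
    {f : E d → F} (hf : AEStronglyMeasurable f (uniformProbOn K)) (M : ℝ)
    (hM : ∀ᵐ x ∂(uniformProbOn K), ‖f x‖ ≤ M) : Integrable f (uniformProbOn K) := by
  have := hK.isProb
  exact Integrable.of_bound hf M hM

/-- A continuous function is integrable for the uniform probability. -/
theorem IsBody.integrable_of_continuous (hK : IsBody K R) {F : Type*} [NormedAddCommGroup F]
    {f : E d → F} (hf : Continuous f) : Integrable f (uniformProbOn K) := by
  unfold uniformProbOn
  exact (hf.continuousOn.integrableOn_compact hK.compact).smul_measure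
    (ENNReal.inv_ne_top.2 hK.vol_ne_zero)

end Crest.Agent.R082
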