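import Crest.Agent.R082.Disc
import Crest.Agent.R082.Brenier

/-!
Row 82: the mixed difference along the linear path, and Lipschitz stability of potentials for
finitely supported couplings.
-/

set_option autoImplicit false
set_option linter.unusedSectionVars false

namespace Crest.Agent.R082

open MeasureTheory Crest.AnalysisR.OT Set
open scoped RealInnerProductSpace ENNReal NNReal

variable {d : ℕ} {K : Set (E d)} {R : ℝ}

/-- Comparison of the increments of two functions through their subgradients. -/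
theorem path_compare {g0 g1 : ℝ → ℝ} {bad : Set ℝ} (hbad : bad.Finite) {L δ : ℝ} (hδ : 0 ≤ δ)
    (hL : 0 ≤ L)
    (hL0 : ∀ s ∈ Icc (0 : ℝ) 1, ∀ s' ∈ Icc (0 : ℝ) 1, g0 s ≤ g0 s' + L * |s - s'|)
    (hL1 : ∀ s ∈ Icc (0 : ℝ) 1, ∀ s' ∈ Icc (0 : ℝ) 1, g1 s ≤ g1 s' + L * |s - s'|)
    (H : ∀ s ∈ Icc (0 : ℝ) 1, s ∉ bad → ∃ p p' : ℝ,
      (∀ s' ∈ Icc (0 : ℝ) 1, g0 s + (s' - s) * p ≤ g0 s') ∧
      (∀ s' ∈ Icc (0 : ℝ) 1, g1 s + (s' - s) * p' ≤ g1 s') ∧ p - p' ≤ δ) :
    g0 1 - g0 0 - δ ≤ g1 1 - g1 0 := by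
  have main : ∀ n : ℕ, g0 1 - g0 0 - δ ≤ g1 1 - g1 0 + 6 * L * (1 / ((n : ℝ) + 2)) := by
    intro n
    set N : ℝ := (n : ℝ) + 2 with hN
    have hN0 : 0 < N := by positivity
    set u : ℝ := 1 / N with hu
    have hu0 : 0 < u := by positivity
    have huN : u * N = 1 := by rw [hu]; field_simp
    have hfin : ((fun q : ℝ × ℕ => N * q.1 - q.2) '' (bad ×ˢ Iic (n + 2))).Finite :=
      (hbad.prod (finite_Iic _)).image _
    obtain ⟨θ, hθ, hθb⟩ := (Ioo_infinite (zero_lt_one' ℝ)).exists_notMem_finite hfin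
    let s : ℕ → ℝ := fun k => (k + θ) * u
    have hs : ∀ k : ℕ, k ≤ n + 1 → s k ∈ Icc (0 : ℝ) 1 := by
      intro k hk
      have hk' : (k : ℝ) ≤ n + 1 := by exact_mod_cast hk
      refine ⟨mul_nonneg (add_nonneg (Nat.cast_nonneg _) hθ.1.le) hu0.le, ?_⟩
      have : (k : ℝ) + θ ≤ N := by rw [hN]; linarith [hθ.2]
      calc s k = (k + θ) * u := rfl
        _ ≤ N * u := by gcongr
        _ = 1 := by rw [mul_comm, huN]
    have hsb : ∀ k : ℕ, k ≤ n + 1 → s k ∉ bad := by
      intro k hk hb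
      refine hθb ⟨(s k, k), ⟨hb, by simp only [mem_Iic]; omega⟩, ?_⟩
      simp only [s]
      linear_combination ((k : ℝ) + θ) * huN
    have hstep : ∀ k : ℕ, s (k + 1) - s k = u := by
      intro k; simp only [s]; push_cast; ring
    have ind : ∀ k : ℕ, k ≤ n → g0 (s k) - g0 (s 0) - k * u * δ ≤ g1 (s (k + 1)) - g1 (s 1) := by
      intro k
      induction k with
      | zero => intro _; simp
      | succ k ih =>
        intro hk
        have h1 := ih (by omega)
        obtain ⟨p, p', hp, hp', hpp⟩ := H (s (k + 1)) (hs _ (by omega)) (hsb _ (by omega))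
        have h2 := hp (s k) (hs _ (by omega))
        have h3 := hp' (s (k + 1 + 1)) (hs _ (by omega))
        rw [hstep] at h3
        have h4 : s k - s (k + 1) = -u := by rw [← hstep k]; ring
        rw [h4] at h2
        have h5 : u * (p - p') ≤ u * δ := mul_le_mul_of_nonneg_left hpp hu0.le
        push_cast
        nlinarith
    have h1 := ind n le_rfl
    have h01 : (0 : ℝ) ∈ Icc (0 : ℝ) 1 := ⟨le_rfl, zero_le_one⟩
    have h11 : (1 : ℝ) ∈ Icc (0 : ℝ) 1 := ⟨zero_le_one, le_rfl⟩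
    have a1 := hL0 1 h11 (s n) (hs n (by omega))
    have a2 := hL0 (s 0) (hs 0 (by omega)) 0 h01
    have a3 := hL1 (s (n + 1)) (hs _ le_rfl) 1 h11
    have a4 := hL1 0 h01 (s 1) (hs 1 (by omega))
    have hθu : θ * u ≤ u := mul_le_of_le_one_left hu0.le hθ.2.le
    have hθu0 : 0 ≤ θ * u := mul_nonneg hθ.1.le hu0.le
    have hnu : (n : ℝ) * u = 1 - 2 * u := by rw [hN] at huN; linarith
    have b1 : |1 - s n| ≤ 2 * u := by
      simp only [s]; rw [add_mul, hnu, abs_le]; constructor <;> linarith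
    have b2 : |s 0 - 0| ≤ u := by
      simp only [s]; push_cast; rw [zero_add, abs_le]; constructor <;> linarith
    have b3 : |s (n + 1) - 1| ≤ u := by
      simp only [s]; push_cast; rw [add_mul, add_mul, hnu, abs_le]; constructor <;> linarith
    have b4 : |0 - s 1| ≤ 2 * u := by
      simp only [s]; push_cast; rw [add_mul, abs_le]; constructor <;> linarith
    have c1 := mul_le_mul_of_nonneg_left b1 hL
    have c2 := mul_le_mul_of_nonneg_left b2 hL
    have c3 := mul_le_mul_of_nonneg_left b3 hL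
    have c4 := mul_le_mul_of_nonneg_left b4 hL
    have c5 : (n : ℝ) * u * δ ≤ δ := by
      rw [hnu]; nlinarith
    linarith
  have lim : Filter.Tendsto (fun n : ℕ => g1 1 - g1 0 + 6 * L * (1 / ((n : ℝ) + 2)))
      Filter.atTop (nhds (g1 1 - g1 0 + 6 * L * 0)) := by
    refine Filter.Tendsto.const_add _ (Filter.Tendsto.const_mul _ ?_)
    exact tendsto_const_nhds.div_atTop
      (Filter.tendsto_atTop_add_const_right _ _ tendsto_natCast_atTop_atTop)
  simpa using ge_of_tendsto' lim main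

section
variable {ι : Type} [Fintype ι]

/-- The linear path of positions. -/
noncomputable def pos (y z : ι → E d) (s : ℝ) : ι → E d := fun j => y j + s • (z j - y j)

theorem pos_zero (y z : ι → E d) : pos y z 0 = y := by ext1 j; simp [pos]

theorem pos_one (y z : ι → E d) : pos y z 1 = z := by ext1 j; simp [pos]

theorem norm_pos_le {y z : ι → E d} (hy : ∀ j, ‖y j‖ ≤ R) (hz : ∀ j, ‖z j‖ ≤ R) {s : ℝ}
    (hs : s ∈ Icc (0 : ℝ) 1) (j : ι) : ‖pos y z s j‖ ≤ R := by
  have e : pos y z s j = (1 - s) • y j + s • z j := by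
    simp only [pos, smul_sub, sub_smul, one_smul]; abel
  rw [e]
  refine (norm_add_le _ _).trans ?_
  rw [norm_smul, norm_smul, Real.norm_of_nonneg hs.1, Real.norm_of_nonneg (sub_nonneg.2 hs.2)]
  have h1 := mul_le_mul_of_nonneg_left (hy j) (sub_nonneg.2 hs.2)
  have h2 := mul_le_mul_of_nonneg_left (hz j) hs.1
  linarith

theorem finite_bad {y z : ι → E d} (hinj : ∀ i j, y i = y j → z i = z j → i = j) :
    {s : ℝ | ¬ Function.Injective (pos y z s)}.Finite := by
  have : {s : ℝ | ¬ Function.Injective (pos y z s)} ⊆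
      ⋃ i, ⋃ j, {s : ℝ | i ≠ j ∧ pos y z s i = pos y z s j} := by
    intro s hs
    simp only [Function.Injective, mem_ofPred_eq, not_forall] at hs
    obtain ⟨i, j, h1, h2⟩ := hs
    exact mem_iUnion.2 ⟨i, mem_iUnion.2 ⟨j, h2, h1⟩⟩
  refine Finite.subset (finite_iUnion fun i => finite_iUnion fun j => ?_) this
  refine Set.Subsingleton.finite ?_
  intro s hs t ht
  by_contra hst
  have h1 := hs.2
  have h2 := ht.2
  simp only [pos] at h1 h2
  have h3 : (s - t) • ((z i - y i) - (z j - y j)) = 0 := by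
    linear_combination (norm := module) h1 - h2
  rcases smul_eq_zero.1 h3 with h4 | h4
  · exact hst (sub_eq_zero.1 h4)
  · have h5 : z i - y i = z j - y j := sub_eq_zero.1 h4
    rw [h5] at h1
    have h6 : y i = y j := add_right_cancel h1
    rw [h6] at h5
    exact hs.1 (hinj i j h6 (sub_left_injective h5))

/-- The mixed difference estimate. -/
theorem mixed_diff (hK : IsBody K R) {m m' : ι → ℝ} {y z : ι → E d}
    (hm0 : ∀ j, 0 ≤ m j) (hm1 : ∑ j, m j = 1) (hm0' : ∀ j, 0 ≤ m' j) (hm1' : ∑ j, m' j = 1)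
    (hy : ∀ j, ‖y j‖ ≤ R) (hz : ∀ j, ‖z j‖ ≤ R) (hinj : ∀ i j, y i = y j → z i = z j → i = j)
    {φ0 ψ0 φ1 ψ1 φ0' ψ0' : E d → ℝ} {T0 T1 T0' : E d → E d}
    (h0 : IsBrenier K R (dm m y) φ0 ψ0 T0) (h1 : IsBrenier K R (dm m z) φ1 ψ1 T1)
    (h0' : IsBrenier K R (dm m' y) φ0' ψ0' T0') :
    (∑ j, m j * ψ1 (z j)) - (∫ x, φ0 x ∂(uniformProbOn K) + ∑ j, m j * ψ0 (y j)) -
        ∑ j, (5 / 2 * (R * ‖z j - y j‖) ^ 2 * (m j + m' j) +
          5 / 2 * ((m j - m' j) ^ 2 / (m j + m' j))) ≤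
      (∑ j, m' j * ψ1 (z j)) - (∫ x, φ0' x ∂(uniformProbOn K) + ∑ j, m' j * ψ0' (y j)) := by
  classical
  have hR := hK.R_pos
  have ex : ∀ (n : ι → ℝ), (∀ j, 0 ≤ n j) → ∑ j, n j = 1 → ∀ s : ℝ,
      ∃ (φ ψ : E d → ℝ) (T : E d → E d), s ∈ Icc (0 : ℝ) 1 →
        IsBrenier K R (dm n (pos y z s)) φ ψ T := by
    intro n hn0 hn1 s
    by_cases hs : s ∈ Icc (0 : ℝ) 1
    · have := isProb_dm hn0 hn1 (pos y z s)
      obtain ⟨φ, ψ, T, h⟩ := exists_isBrenier hK (dm n (pos y z s))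
        (ae_dm (norm_pos_le hy hz hs))
      exact ⟨φ, ψ, T, fun _ => h⟩
    · exact ⟨0, 0, id, fun h => absurd h hs⟩
  choose Φ Ψ TT hB using ex m hm0 hm1
  choose Φ' Ψ' TT' hB' using ex m' hm0' hm1'
  let g0 : ℝ → ℝ := fun s => ∫ x, Φ s x ∂(uniformProbOn K) + ∑ j, m j * Ψ s (pos y z s j)
  let g1 : ℝ → ℝ := fun s => ∫ x, Φ' s x ∂(uniformProbOn K) + ∑ j, m' j * Ψ' s (pos y z s j)
  have lip : ∀ (n : ι → ℝ), (∀ j, 0 ≤ n j) → ∑ j, n j = 1 → ∀ (s s' : ℝ)
      (φ ψ φ' ψ' : E d → ℝ) (T T' : E d → E d), IsBrenier K R (dm n (pos y z s)) φ ψ T →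
      IsBrenier K R (dm n (pos y z s')) φ' ψ' T' →
      ∫ x, φ x ∂(uniformProbOn K) + ∑ j, n j * ψ (pos y z s j) ≤
        ∫ x, φ' x ∂(uniformProbOn K) + ∑ j, n j * ψ' (pos y z s' j) + 2 * R ^ 2 * |s - s'| := by
    intro n hn0 hn1 s s' φ ψ φ' ψ' T T' h h'
    have w := h.weak_duality hK h'
    rw [integral_dm hn0, integral_dm hn0] at w
    refine w.trans ?_
    have : ∑ j, n j * ψ' (pos y z s j) ≤
        ∑ j, (n j * ψ' (pos y z s' j) + n j * (2 * R ^ 2 * |s - s'|)) := by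
      refine Finset.sum_le_sum fun j _ => ?_
      rw [← mul_add]
      refine mul_le_mul_of_nonneg_left ?_ (hn0 j)
      have h2 := (abs_le.1 (h'.lipψ (pos y z s j) (pos y z s' j))).2
      have h3 : pos y z s j - pos y z s' j = (s - s') • (z j - y j) := by
        simp only [pos, sub_smul]; abel
      have h4 : ‖z j - y j‖ ≤ 2 * R := (norm_sub_le _ _).trans (by linarith [hy j, hz j])
      rw [h3, norm_smul, Real.norm_eq_abs] at h2
      have h5 : R * (|s - s'| * ‖z j - y j‖) ≤ R * (|s - s'| * (2 * R)) := by gcongr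
      nlinarith
    rw [Finset.sum_add_distrib, ← Finset.sum_mul, hn1, one_mul] at this
    linarith
  have key := path_compare (g0 := g0) (g1 := g1) (finite_bad hinj) (L := 2 * R ^ 2)
    (δ := ∑ j, (5 / 2 * (R * ‖z j - y j‖) ^ 2 * (m j + m' j) +
          5 / 2 * ((m j - m' j) ^ 2 / (m j + m' j))))
    (Finset.sum_nonneg fun j _ => by have := hm0 j; have := hm0' j; positivity) (by positivity)
    (fun s hs s' hs' => lip m hm0 hm1 s s' _ _ _ _ _ _ (hB s hs) (hB s' hs'))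
    (fun s hs s' hs' => lip m' hm0' hm1' s s' _ _ _ _ _ _ (hB' s hs) (hB' s' hs')) (by
      intro s hs hb
      have hinjs : Function.Injective (pos y z s) := by simpa using hb
      have e : ∀ s' j, pos y z s j + (s' - s) • (z j - y j) = pos y z s' j := by
        intro s' j; simp only [pos, sub_smul]; abel
      refine ⟨_, _, fun s' hs' => ?_, fun s' hs' => ?_,
        moment_le hK (hB s hs) (hB' s hs) hm0 hm0' hinjs (norm_pos_le hy hz hs)
          (fun j => z j - y j)⟩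
      · have := (hB s hs).subgrad hK hm0 hinjs (fun j => z j - y j) (s' - s)
          (fun j => by rw [e]; exact norm_pos_le hy hz hs' j) (hB s' hs')
        simpa only [e] using this
      · have := (hB' s hs).subgrad hK hm0' hinjs (fun j => z j - y j) (s' - s)
          (fun j => by rw [e]; exact norm_pos_le hy hz hs' j) (hB' s' hs')
        simpa only [e] using this)
  have i0 : (0 : ℝ) ∈ Icc (0 : ℝ) 1 := ⟨le_rfl, zero_le_one⟩
  have i1 : (1 : ℝ) ∈ Icc (0 : ℝ) 1 := ⟨zero_le_one, le_rfl⟩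
  have B0 := hB 0 i0
  have B1 := hB 1 i1
  have B0' := hB' 0 i0
  have B1' := hB' 1 i1
  simp only [g0, g1] at key
  rw [pos_zero] at B0 B0' key
  rw [pos_one] at B1 B1' key
  have w1 := h1.weak_duality hK B1
  have w2 := B0.weak_duality hK h0
  have w3 := B1'.weak_duality hK h1
  have w4 := h0'.weak_duality hK B0'
  rw [integral_dm hm0, integral_dm hm0] at w1 w2
  rw [integral_dm hm0', integral_dm hm0'] at w3 w4
  linarith

end

end Crest.Agent.R082
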