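import Mathlib
import Crest.Agent.R082.Defs

/-!
Row 82, statement S0110: the explicit three-atom example on the cube.
-/

set_option autoImplicit false

namespace Crest.Agent.R082.Sharp

open MeasureTheory Crest.AnalysisR.OT Set Filter Topology
open scoped RealInnerProductSpace ENNReal NNReal

variable {d : ℕ}

/-- Duality certificate: optimality of `T`, and complementary slackness for every optimal map. -/
theorem opt_of_dual {ρ : Measure (E d)} [IsProbabilityMeasure ρ] {R : ℝ}
    (hρ : ∀ᵐ x ∂ρ, ‖x‖ ≤ R) {Y : Set (E d)} (hY : MeasurableSet Y) (hYR : ∀ y ∈ Y, ‖y‖ ≤ R)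
    {φ ψ : E d → ℝ} (cφ : Continuous φ) (cψ : Continuous ψ)
    (feas : ∀ x, ∀ y ∈ Y, ⟪x, y⟫ ≤ φ x + ψ y) {T : E d → E d} (mT : Measurable T)
    (memT : ∀ x, T x ∈ Y) (eqT : ∀ x, φ x + ψ (T x) = ⟪x, T x⟫) :
    IsOptimalMap ρ (ρ.map T) T ∧ ∀ S, IsOptimalMap ρ (ρ.map T) S →
      ∀ᵐ x ∂ρ, S x ∈ Y ∧ φ x + ψ (S x) = ⟪x, S x⟫ := by
  have hmem : ∀ S : E d → E d, Measurable S → ρ.map S = ρ.map T → ∀ᵐ x ∂ρ, S x ∈ Y := by
    intro S mS hS
    have h1 : ∀ᵐ y ∂(ρ.map T), y ∈ Y :=
      (ae_map_iff mT.aemeasurable hY).2 (Filter.Eventually.of_forall memT)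
    rw [← hS] at h1
    exact ae_of_ae_map mS.aemeasurable h1
  have hint : ∀ (U : E d → E d), Measurable U → (∀ᵐ x ∂ρ, U x ∈ Y) →
      ∀ f : E d × E d → ℝ, Continuous f → Integrable (fun x => f (x, U x)) ρ := by
    intro U mU hU f hf
    obtain ⟨C, hC⟩ := ((isCompact_closedBall (0 : E d) R).prod
      (isCompact_closedBall (0 : E d) R)).exists_bound_of_continuousOn hf.continuousOn
    refine Integrable.mono' (integrable_const C)
      (hf.measurable.comp (measurable_id.prodMk mU)).aestronglyMeasurable ?_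
    filter_upwards [hρ, hU] with x hx hx'
    exact hC _ ⟨by simpa using hx, by simpa using hYR _ hx'⟩
  have cG : Continuous fun y : E d => ‖y‖ ^ 2 - 2 * ψ y := by fun_prop
  have hcost : ∀ (U : E d → E d), Measurable U → ρ.map U = ρ.map T →
      ∫ x, ‖x - U x‖ ^ 2 ∂ρ =
        ∫ x, (‖x‖ ^ 2 - 2 * φ x) ∂ρ + ∫ y, (‖y‖ ^ 2 - 2 * ψ y) ∂(ρ.map T) +
          2 * ∫ x, (φ x + ψ (U x) - ⟪x, U x⟫) ∂ρ := by
    intro U mU hmap
    have hU := hmem U mU hmap
    have i1 : Integrable (fun x => ‖x‖ ^ 2 - 2 * φ x) ρ :=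
      hint U mU hU (fun p => ‖p.1‖ ^ 2 - 2 * φ p.1) (by fun_prop)
    have i2 : Integrable (fun x => ‖U x‖ ^ 2 - 2 * ψ (U x)) ρ :=
      hint U mU hU (fun p => ‖p.2‖ ^ 2 - 2 * ψ p.2) (by fun_prop)
    have i3 : Integrable (fun x => φ x + ψ (U x) - ⟪x, U x⟫) ρ :=
      hint U mU hU (fun p => φ p.1 + ψ p.2 - ⟪p.1, p.2⟫) (by fun_prop)
    have i4 : Integrable (fun x => ‖x‖ ^ 2 - 2 * φ x + (‖U x‖ ^ 2 - 2 * ψ (U x))) ρ := i1.add i2
    rw [← hmap, integral_map mU.aemeasurable cG.aestronglyMeasurable, ← integral_add i1 i2,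
      ← integral_const_mul, ← integral_add i4 (i3.const_mul 2)]
    refine integral_congr_ae (Filter.Eventually.of_forall fun x => ?_)
    simp only
    rw [norm_sub_sq_real]
    ring
  have hlin : ∀ (U : E d → E d), Measurable U → ρ.map U = ρ.map T →
      ∫⁻ x, ‖x - U x‖ₑ ^ 2 ∂ρ = ENNReal.ofReal (∫ x, ‖x - U x‖ ^ 2 ∂ρ) := by
    intro U mU hmap
    have i1 := hint U mU (hmem U mU hmap) (fun p => ‖p.1 - p.2‖ ^ 2) (by fun_prop)
    rw [ofReal_integral_eq_lintegral_ofReal i1 (Filter.Eventually.of_forall fun x => by positivity)]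
    refine lintegral_congr fun x => ?_
    rw [ENNReal.ofReal_pow (norm_nonneg _), ofReal_norm]
  have hT0 : ∫ x, (φ x + ψ (T x) - ⟪x, T x⟫) ∂ρ = 0 := by simp [eqT]
  have hnn : ∀ S : E d → E d, Measurable S → ρ.map S = ρ.map T →
      0 ≤ᵐ[ρ] fun x => φ x + ψ (S x) - ⟪x, S x⟫ := by
    intro S mS hS
    filter_upwards [hmem S mS hS] with x hx
    have := feas x (S x) hx
    simp only [Pi.zero_apply]
    linarith
  refine ⟨⟨mT, rfl, fun S mS hS => ?_⟩, fun S hS => ?_⟩
  · rw [hlin S mS hS, hlin T mT rfl, hcost S mS hS, hcost T mT rfl, hT0]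
    refine ENNReal.ofReal_le_ofReal ?_
    have := integral_nonneg_of_ae (hnn S mS hS)
    linarith
  · obtain ⟨mS, mapS, opt⟩ := hS
    have hopt := opt T mT rfl
    rw [hlin S mS mapS, hlin T mT rfl,
      ENNReal.ofReal_le_ofReal_iff (integral_nonneg fun x => by positivity),
      hcost S mS mapS, hcost T mT rfl] at hopt
    have i3 := hint S mS (hmem S mS mapS) (fun p => φ p.1 + ψ p.2 - ⟪p.1, p.2⟫) (by fun_prop)
    have hS0 : ∫ x, (φ x + ψ (S x) - ⟪x, S x⟫) ∂ρ = 0 :=
      le_antisymm (by linarith) (integral_nonneg_of_ae (hnn S mS mapS))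
    have hae := (integral_eq_zero_iff_of_nonneg_ae (hnn S mS mapS) i3).1 hS0
    filter_upwards [hae, hmem S mS mapS] with x hx hx'
    simp only [Pi.zero_apply] at hx
    exact ⟨hx', by linarith⟩

/-- The cube. -/
abbrev Q (d : ℕ) : Set (E d) := {x : EuclideanSpace ℝ (Fin d) | ∀ i, |x i| ≤ 1}

/-- A coordinate box. -/
def box (a b : Fin d → ℝ) : Set (E d) := {x | ∀ i, a i ≤ x i ∧ x i ≤ b i}

theorem box_eq (a b : Fin d → ℝ) : box a b = (WithLp.ofLp : E d → Fin d → ℝ) ⁻¹' Icc a b := by
  ext x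
  simp only [box, mem_ofPred_eq, mem_preimage, mem_Icc, Pi.le_def]
  exact ⟨fun h => ⟨fun i => (h i).1, fun i => (h i).2⟩, fun h i => ⟨h.1 i, h.2 i⟩⟩

theorem box_meas (a b : Fin d → ℝ) : MeasurableSet (box a b) := by
  rw [box_eq]
  exact (PiLp.volume_preserving_ofLp (Fin d)).measurable measurableSet_Icc

theorem volume_box (a b : Fin d → ℝ) :
    volume (box a b) = ∏ i, ENNReal.ofReal (b i - a i) := by
  rw [box_eq, (PiLp.volume_preserving_ofLp (Fin d)).measure_preimage
    measurableSet_Icc.nullMeasurableSet, Real.volume_Icc_pi]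

theorem Q_eq : Q d = box (fun _ => -1) (fun _ => 1) := by
  ext x
  simp only [box, mem_ofPred_eq, abs_le]

theorem Q_meas : MeasurableSet (Q d) := by rw [Q_eq]; exact box_meas _ _

theorem volume_Q : volume (Q d) = 2 ^ d := by
  rw [Q_eq, volume_box]
  norm_num

theorem rho_apply {s : Set (E d)} (hs : MeasurableSet s) :
    uniformProbOn (Q d) s = (2 ^ d)⁻¹ * volume (s ∩ Q d) := by
  simp only [uniformProbOn, Measure.smul_apply, smul_eq_mul, Measure.restrict_apply hs, volume_Q]

instance isProb : IsProbabilityMeasure (uniformProbOn (Q d)) := by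
  constructor
  rw [rho_apply MeasurableSet.univ, univ_inter, volume_Q]
  exact ENNReal.inv_mul_cancel (by simp) (by simp)

theorem rho_box {a b : Fin d → ℝ} (ha : ∀ i, -1 ≤ a i) (hb : ∀ i, b i ≤ 1) :
    uniformProbOn (Q d) (box a b) = ∏ i, ENNReal.ofReal ((b i - a i) / 2) := by
  have hsub : box a b ⊆ Q d := fun x hx i =>
    abs_le.2 ⟨(ha i).trans (hx i).1, (hx i).2.trans (hb i)⟩
  rw [rho_apply (box_meas a b), inter_eq_left.2 hsub, volume_box]
  have : ∀ i, ENNReal.ofReal ((b i - a i) / 2) = 2⁻¹ * ENNReal.ofReal (b i - a i) := by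
    intro i
    rw [ENNReal.ofReal_div_of_pos (by norm_num), div_eq_mul_inv, mul_comm]
    norm_num
  simp only [this, Finset.prod_mul_distrib, Finset.prod_const, Finset.card_univ, Fintype.card_fin,
    ENNReal.inv_pow]

theorem rho_pos {s : Set (E d)} {a b : Fin d → ℝ} (ha : ∀ i, -1 ≤ a i) (hb : ∀ i, b i ≤ 1)
    (hab : ∀ i, a i < b i) (hs : box a b ⊆ s) : 0 < uniformProbOn (Q d) s := by
  refine lt_of_lt_of_le ?_ (measure_mono hs)
  rw [rho_box ha hb, pos_iff_ne_zero, Finset.prod_ne_zero_iff]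
  intro i _
  have := hab i
  simp only [ne_eq, ENNReal.ofReal_eq_zero, not_le]
  linarith

theorem ae_Q : ∀ᵐ x ∂(uniformProbOn (Q d)), x ∈ Q d := by
  unfold uniformProbOn
  exact Measure.ae_smul_measure (ae_restrict_mem Q_meas) _

theorem norm_le_of_Q {x : E d} (hx : x ∈ Q d) : ‖x‖ ≤ d + 1 := by
  have h1 : ‖x‖ ^ 2 ≤ d := by
    rw [EuclideanSpace.real_norm_sq_eq]
    calc ∑ i, (x i) ^ 2 ≤ ∑ _i : Fin d, (1 : ℝ) :=
          Finset.sum_le_sum fun i _ => by
            have := hx i
            rw [← sq_abs]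
            nlinarith [abs_nonneg (x i)]
      _ = d := by simp
  nlinarith [norm_nonneg x, (Nat.cast_nonneg d : (0 : ℝ) ≤ d)]

/-- Reflection of the coordinate `j`. -/
noncomputable def refl (j : Fin d) : E d ≃ₗᵢ[ℝ] E d :=
  LinearIsometryEquiv.piLpCongrRight 2
    (fun i => if i = j then LinearIsometryEquiv.neg ℝ else LinearIsometryEquiv.refl ℝ ℝ)

theorem refl_apply (j : Fin d) (x : E d) (i : Fin d) :
    refl j x i = if i = j then -x i else x i := by
  simp only [refl, LinearIsometryEquiv.piLpCongrRight_apply]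
  split_ifs <;> simp

theorem map_refl (j : Fin d) : (uniformProbOn (Q d)).map (refl j) = uniformProbOn (Q d) := by
  have hpre : refl j ⁻¹' Q d = Q d := by
    ext x
    simp only [mem_preimage, mem_ofPred_eq, refl_apply]
    refine forall_congr' fun i => ?_
    split_ifs <;> simp
  have h1 := (refl j).measurePreserving.restrict_preimage (Q_meas (d := d))
  rw [hpre] at h1
  unfold uniformProbOn
  rw [Measure.map_smul, h1.map_eq]

section Example

variable (i0 i1 : Fin d) (h s : ℝ)

/-- The three atoms. -/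
noncomputable def atom : Fin 3 → E d :=
  ![EuclideanSpace.single i0 (-1), EuclideanSpace.single i0 1, EuclideanSpace.single i1 (s * h)]

/-- The cell index. -/
noncomputable def cell (x : E d) : Fin 3 :=
  if |x i0| ≤ h * (1 + s * x i1) then 2 else if 0 ≤ x i0 then 1 else 0

/-- The transport map. -/
noncomputable def T (x : E d) : E d := atom i0 i1 h s (cell i0 i1 h s x)

/-- First potential. -/
noncomputable def φ (x : E d) : ℝ := max |x i0| (h * (1 + s * x i1))

/-- Second potential. -/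
noncomputable def ψ (y : E d) : ℝ := -h * (1 - |y i0|)

theorem cell_meas : Measurable (cell i0 i1 h s) := by
  unfold cell
  refine Measurable.ite ?_ measurable_const (Measurable.ite ?_ measurable_const measurable_const)
  · exact (isClosed_le (by fun_prop) (by fun_prop)).measurableSet
  · exact (isClosed_le (by fun_prop) (by fun_prop)).measurableSet

theorem T_meas : Measurable (T i0 i1 h s) :=
  (measurable_of_countable (atom i0 i1 h s)).comp (cell_meas i0 i1 h s)

variable {i0 i1 h s}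

theorem atom_val (hne : i0 ≠ i1) (x : E d) :
    ⟪x, atom i0 i1 h s 0⟫ - ψ i0 h (atom i0 i1 h s 0) = -x i0 ∧
    ⟪x, atom i0 i1 h s 1⟫ - ψ i0 h (atom i0 i1 h s 1) = x i0 ∧
    ⟪x, atom i0 i1 h s 2⟫ - ψ i0 h (atom i0 i1 h s 2) = h * (1 + s * x i1) := by
  refine ⟨?_, ?_, ?_⟩
  · simp [atom, ψ, EuclideanSpace.inner_single_right]
  · simp [atom, ψ, EuclideanSpace.inner_single_right]
  · simp [atom, ψ, EuclideanSpace.inner_single_right, hne]
    ring

theorem atom_inj (hne : i0 ≠ i1) : Function.Injective (atom i0 i1 h s) := by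
  intro a b hab
  have := congrArg (fun v : E d => v i0) hab
  fin_cases a <;> fin_cases b <;> simp [atom, hne] at this ⊢ <;> norm_num at this

theorem atom_mem (hh : |s * h| ≤ 1) (j : Fin 3) : atom i0 i1 h s j ∈ Q d := by
  intro i
  fin_cases j <;> simp only [atom] <;> simp <;> split_ifs <;> simp
  simpa using hh

theorem T_opt (hne : i0 ≠ i1) (hh : |s * h| ≤ 1) :
    IsOptimalMap (uniformProbOn (Q d)) ((uniformProbOn (Q d)).map (T i0 i1 h s)) (T i0 i1 h s) ∧
      ∀ S, IsOptimalMap (uniformProbOn (Q d)) ((uniformProbOn (Q d)).map (T i0 i1 h s)) S →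
      ∀ᵐ x ∂(uniformProbOn (Q d)), S x ∈ range (atom i0 i1 h s) ∧
        φ i0 i1 h s x + ψ i0 h (S x) = ⟪x, S x⟫ := by
  refine opt_of_dual (R := d + 1) (ae_Q.mono fun x hx => norm_le_of_Q hx)
    (finite_range _).measurableSet ?_ (by unfold φ; fun_prop) (by unfold ψ; fun_prop) ?_
    (T_meas i0 i1 h s) (fun x => mem_range_self _) ?_
  · rintro y ⟨j, rfl⟩
    exact norm_le_of_Q (atom_mem hh j)
  · rintro x y ⟨j, rfl⟩
    obtain ⟨h0, h1, h2⟩ := atom_val (h := h) (s := s) hne x
    have a1 : |x i0| ≤ φ i0 i1 h s x := le_max_left _ _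
    have a2 : h * (1 + s * x i1) ≤ φ i0 i1 h s x := le_max_right _ _
    have a3 := le_abs_self (x i0)
    have a4 := neg_abs_le (x i0)
    fin_cases j
    · simp only [Fin.zero_eta]; linarith
    · simp only [Fin.mk_one]; linarith
    · simp only [Fin.reduceFinMk]; linarith
  · intro x
    obtain ⟨h0, h1, h2⟩ := atom_val (h := h) (s := s) hne x
    unfold T cell φ
    split_ifs with c1 c2
    · rw [max_eq_right c1]; linarith
    · rw [max_eq_left (not_le.1 c1).le, abs_of_nonneg c2]; linarith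
    · rw [max_eq_left (not_le.1 c1).le, abs_of_neg (not_le.1 c2)]; linarith

theorem map_T_prob (hh : |s * h| ≤ 1) :
    IsProbabilityOn (Q d) ((uniformProbOn (Q d)).map (T i0 i1 h s)) := by
  refine ⟨Measure.isProbabilityMeasure_map (T_meas i0 i1 h s).aemeasurable, ?_⟩
  rw [Measure.map_apply (T_meas i0 i1 h s) Q_meas.compl]
  have : T i0 i1 h s ⁻¹' (Q d)ᶜ = ∅ := by
    ext x
    simp only [mem_preimage, mem_compl_iff, mem_empty_iff_false, iff_false, not_not]
    exact atom_mem hh _
  rw [this, measure_empty]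

theorem cell_pos (hne : i0 ≠ i1) (h0 : 0 < h) (h1 : h < 1 / 4) (hs : |s| ≤ 1) (j : Fin 3) :
    0 < uniformProbOn (Q d) (cell i0 i1 h s ⁻¹' {j}) := by
  have hs' := abs_le.1 hs
  have key : ∀ t : ℝ, |t| ≤ 1 / 2 → |s * t| ≤ 1 / 2 := fun t ht => by
    rw [abs_mul]; nlinarith [abs_nonneg s, abs_nonneg t]
  fin_cases j
  · refine rho_pos (a := fun i => if i = i0 then -1 else 0)
      (b := fun i => if i = i0 then -(3 / 4) else 1 / 2) (fun i => by split_ifs <;> norm_num)
      (fun i => by split_ifs <;> norm_num) (fun i => by split_ifs <;> norm_num) fun x hx => ?_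
    have b0 := hx i0
    have b1 := hx i1
    simp only [if_true, if_neg hne.symm] at b0 b1
    have := abs_le.1 (key (x i1) (abs_le.2 ⟨by linarith [b1.1], b1.2⟩))
    have e : |x i0| = -x i0 := abs_of_neg (by linarith [b0.2])
    simp only [mem_preimage, cell, mem_singleton_iff]
    rw [if_neg (by rw [e]; nlinarith [b0.2]), if_neg (by linarith [b0.2])]
    rfl
  · refine rho_pos (a := fun i => if i = i0 then 3 / 4 else 0)
      (b := fun i => if i = i0 then 1 else 1 / 2) (fun i => by split_ifs <;> norm_num)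
      (fun i => by split_ifs <;> norm_num) (fun i => by split_ifs <;> norm_num) fun x hx => ?_
    have b0 := hx i0
    have b1 := hx i1
    simp only [if_true, if_neg hne.symm] at b0 b1
    have := abs_le.1 (key (x i1) (abs_le.2 ⟨by linarith [b1.1], b1.2⟩))
    have e : |x i0| = x i0 := abs_of_pos (by linarith [b0.1])
    simp only [mem_preimage, cell, mem_singleton_iff]
    rw [if_neg (by rw [e]; nlinarith [b0.1]), if_pos (by linarith [b0.1])]
    rfl
  · refine rho_pos (a := fun i => 0)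
      (b := fun i => if i = i0 then h / 2 else 1 / 2) (fun i => by norm_num)
      (fun i => by split_ifs <;> linarith) (fun i => by split_ifs <;> linarith) fun x hx => ?_
    have b0 := hx i0
    have b1 := hx i1
    simp only [if_true, if_neg hne.symm] at b0 b1
    have := abs_le.1 (key (x i1) (abs_le.2 ⟨by linarith [b1.1], b1.2⟩))
    have e : |x i0| = x i0 := abs_of_nonneg b0.1
    simp only [mem_preimage, cell, mem_singleton_iff]
    rw [if_pos (by rw [e]; nlinarith [b0.2])]
    rfl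

theorem map_T_three (hne : i0 ≠ i1) (h0 : 0 < h) (h1 : h < 1 / 4) (hs : |s| ≤ 1) :
    IsThreeAtomic ((uniformProbOn (Q d)).map (T i0 i1 h s)) := by
  refine ⟨atom i0 i1 h s, atom_inj hne,
    fun j => (uniformProbOn (Q d) (cell i0 i1 h s ⁻¹' {j})).toReal,
    fun j => ENNReal.toReal_pos (cell_pos hne h0 h1 hs j).ne' (measure_ne_top _ _), ?_⟩
  have hc := cell_meas i0 i1 h s
  have ha : Measurable (atom i0 i1 h s) := measurable_of_countable _
  have e1 : (uniformProbOn (Q d)).map (T i0 i1 h s) =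
      ((uniformProbOn (Q d)).map (cell i0 i1 h s)).map (atom i0 i1 h s) := by
    rw [Measure.map_map ha hc]; rfl
  have e2 := Measure.sum_smul_dirac ((uniformProbOn (Q d)).map (cell i0 i1 h s))
  rw [Measure.sum_fintype] at e2
  rw [e1, ← e2]
  simp only [Fin.sum_univ_three, Measure.map_add _ _ ha, Measure.map_smul, Measure.map_dirac,
    Measure.map_apply hc (measurableSet_singleton _), ENNReal.ofReal_toReal (measure_ne_top _ _)]

/-- The coupling. -/
noncomputable def coup (i0 i1 : Fin d) (h : ℝ) : Measure (E d × E d) :=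
  (uniformProbOn (Q d)).map fun x => (T i0 i1 h 1 x, T i0 i1 h (-1) (refl i1 x))

theorem coup_meas (i0 i1 : Fin d) (h : ℝ) :
    Measurable fun x : E d => (T i0 i1 h 1 x, T i0 i1 h (-1) (refl i1 x)) :=
  (T_meas i0 i1 h 1).prodMk ((T_meas i0 i1 h (-1)).comp (refl i1).continuous.measurable)

theorem coup_isCoupling (i0 i1 : Fin d) (h : ℝ) :
    IsPairCoupling ((uniformProbOn (Q d)).map (T i0 i1 h 1))
      ((uniformProbOn (Q d)).map (T i0 i1 h (-1))) (coup i0 i1 h) := by
  constructor
  · rw [coup, Measure.map_map measurable_fst (coup_meas i0 i1 h)]; rfl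
  · rw [coup, Measure.map_map measurable_snd (coup_meas i0 i1 h)]
    conv_rhs => rw [← map_refl i1,
      Measure.map_map (T_meas i0 i1 h (-1)) (refl i1).continuous.measurable]
    rfl

theorem coup_cost (hne : i0 ≠ i1) (h0 : 0 < h) (h1 : h < 1 / 4) :
    quadCost (coup i0 i1 h) ≤ ENNReal.ofReal (8 * h ^ 3) := by
  unfold quadCost coup
  rw [lintegral_map (by fun_prop) (coup_meas i0 i1 h)]
  set W : Set (E d) := box (fun i => if i = i0 then -(2 * h) else -1)
    (fun i => if i = i0 then 2 * h else 1) with hW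
  have hWm : uniformProbOn (Q d) W = ENNReal.ofReal (2 * h) := by
    rw [hW, rho_box (fun i => by split_ifs <;> linarith) (fun i => by split_ifs <;> linarith),
      Finset.prod_eq_single i0]
    · simp only [if_true]; congr 1; ring
    · intro i _ hi
      simp only [if_neg hi]; norm_num
    · simp
  calc ∫⁻ x, ‖T i0 i1 h 1 x - T i0 i1 h (-1) (refl i1 x)‖ₑ ^ 2 ∂(uniformProbOn (Q d))
      ≤ ∫⁻ x, W.indicator (fun _ => ENNReal.ofReal (4 * h ^ 2)) x ∂(uniformProbOn (Q d)) := by
        refine lintegral_mono_ae ?_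
        filter_upwards [ae_Q] with x hx
        have hc : cell i0 i1 h (-1) (refl i1 x) = cell i0 i1 h 1 x := by
          simp [cell, refl_apply, hne]
        unfold T
        rw [hc]
        unfold cell
        split_ifs with c1 c2
        · have hxW : x ∈ W := by
            intro i
            have a1 := abs_le.1 (hx i)
            have a2 := abs_le.1 (hx i1)
            have a3 := abs_le.1 c1
            beta_reduce
            split_ifs with hi
            · subst hi
              constructor <;> nlinarith [a3.1, a3.2]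
            · exact a1
          rw [indicator_of_mem hxW, ← ofReal_norm, ← ENNReal.ofReal_pow (norm_nonneg _)]
          refine ENNReal.ofReal_le_ofReal (le_of_eq ?_)
          have : atom i0 i1 h 1 2 - atom i0 i1 h (-1) 2 = EuclideanSpace.single i1 (2 * h) := by
            ext i
            simp only [atom]
            by_cases hi : i = i1
            · subst hi; simp; ring
            · simp [hi]
          rw [this, PiLp.norm_single, Real.norm_eq_abs, sq_abs]
          ring
        · simp [atom]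
        · simp [atom]
    _ = ENNReal.ofReal (8 * h ^ 3) := by
        rw [lintegral_indicator_const (box_meas _ _), hWm,
          ← ENNReal.ofReal_mul (by positivity)]
        congr 1; ring

theorem lower (hne : i0 ≠ i1) (h0 : 0 < h) (h1 : h < 1 / 4) {S S' : E d → E d}
    (hS : IsOptimalMap (uniformProbOn (Q d)) ((uniformProbOn (Q d)).map (T i0 i1 h 1)) S)
    (hS' : IsOptimalMap (uniformProbOn (Q d)) ((uniformProbOn (Q d)).map (T i0 i1 h (-1))) S') :
    ENNReal.ofReal ((1 / 4) ^ d * h) ≤ ∫⁻ x, ‖S x - S' x‖ₑ ^ 2 ∂(uniformProbOn (Q d)) := by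
  have k1 := (T_opt (h := h) (s := 1) hne (by rw [abs_le]; constructor <;> linarith)).2 S hS
  have k2 := (T_opt (h := h) (s := -1) hne (by rw [abs_le]; constructor <;> linarith)).2 S' hS'
  set W : Set (E d) := box (fun i => if i = i0 then 3 / 4 * h else 1 / 2)
    (fun i => if i = i0 then 5 / 4 * h else 1) with hW
  have hWm : uniformProbOn (Q d) W = ENNReal.ofReal ((1 / 4) ^ d * h) := by
    rw [hW, rho_box (fun i => by split_ifs <;> linarith) (fun i => by split_ifs <;> linarith),
      ← ENNReal.ofReal_prod_of_nonneg (fun i _ => by split_ifs <;> linarith)]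
    congr 1
    have : ∀ i : Fin d, ((if i = i0 then 5 / 4 * h else 1) - if i = i0 then 3 / 4 * h else 1 / 2) / 2
        = 1 / 4 * (if i = i0 then h else 1) := by
      intro i; split_ifs <;> ring
    simp only [this, Finset.prod_mul_distrib, Finset.prod_const, Finset.card_univ,
      Fintype.card_fin, Finset.prod_ite_eq', Finset.mem_univ, if_true]
  rw [← hWm, ← one_mul (uniformProbOn (Q d) W), ← lintegral_indicator_const (box_meas _ _)]
  refine lintegral_mono_ae ?_
  filter_upwards [k1, k2] with x hx hx'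
  by_cases hxW : x ∈ W
  swap
  · rw [indicator_of_notMem hxW]; exact zero_le
  rw [indicator_of_mem hxW]
  have b0 := hxW i0
  have b1 := hxW i1
  simp only [if_true, if_neg hne.symm] at b0 b1
  have e : |x i0| = x i0 := abs_of_pos (by linarith [b0.1])
  obtain ⟨⟨j, hj⟩, hx⟩ := hx
  obtain ⟨⟨j', hj'⟩, hx'⟩ := hx'
  obtain ⟨p0, p1, p2⟩ := atom_val (h := h) (s := 1) hne x
  obtain ⟨q0, q1, q2⟩ := atom_val (h := h) (s := -1) hne x
  have a2 : h * (1 + 1 * x i1) ≤ φ i0 i1 h 1 x := le_max_right _ _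
  have a1 : |x i0| ≤ φ i0 i1 h (-1) x := le_max_left _ _
  rw [← hj] at hx
  rw [← hj'] at hx'
  have ej : j = 2 := by
    fin_cases j
    · exfalso; simp only [Fin.zero_eta] at hx; nlinarith [b0.1, b0.2, b1.1]
    · exfalso; simp only [Fin.mk_one] at hx; nlinarith [b0.1, b0.2, b1.1]
    · rfl
  have ej' : j' = 1 := by
    fin_cases j'
    · exfalso; simp only [Fin.zero_eta] at hx'; nlinarith [b0.1, b0.2, b1.1]
    · rfl
    · exfalso; simp only [Fin.reduceFinMk] at hx'; nlinarith [b0.1, b0.2, b1.1]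
  rw [← hj, ← hj', ej, ej', ← ofReal_norm, ← ENNReal.ofReal_pow (norm_nonneg _),
    ← ENNReal.ofReal_one]
  refine ENNReal.ofReal_le_ofReal ?_
  have := PiLp.norm_apply_le (atom i0 i1 h 1 2 - atom i0 i1 h (-1) 1) i0
  have e2 : (atom i0 i1 h 1 2 - atom i0 i1 h (-1) 1) i0 = -1 := by simp [atom, hne]
  rw [e2] at this
  simp only [norm_neg, norm_one] at this
  nlinarith

end Example

theorem exists_small (c C α : ℝ) (hc : 0 < c) (hα : 1 / 3 < α) :
    ∃ h : ℝ, 0 < h ∧ h < 1 / 4 ∧ C * (8 * h ^ 3) ^ α < c * h := by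
  have hβ : 0 < 3 * α - 1 := by linarith
  have h1 : Tendsto (fun h : ℝ => C * 8 ^ α * h ^ (3 * α - 1)) (𝓝[>] 0) (𝓝 0) := by
    have : Tendsto (fun h : ℝ => h ^ (3 * α - 1)) (𝓝 0) (𝓝 ((0 : ℝ) ^ (3 * α - 1))) :=
      (Real.continuousAt_rpow_const 0 _ (Or.inr hβ.le)).tendsto
    rw [Real.zero_rpow hβ.ne'] at this
    simpa using (this.mono_left nhdsWithin_le_nhds).const_mul (C * 8 ^ α)
  have h2 : ∀ᶠ h : ℝ in 𝓝[>] 0, h < 1 / 4 :=
    nhdsWithin_le_nhds (eventually_lt_nhds (by norm_num))
  obtain ⟨h, ⟨a1, a2⟩, a3⟩ := (((h1.eventually (eventually_lt_nhds hc)).and h2).and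
    self_mem_nhdsWithin).exists
  have hpos : 0 < h := a3
  refine ⟨h, hpos, a2, ?_⟩
  have e : (8 * h ^ 3) ^ α = 8 ^ α * h ^ (3 * α - 1) * h := by
    rw [Real.mul_rpow (by norm_num) (by positivity), ← Real.rpow_natCast, ← Real.rpow_mul hpos.le,
      mul_assoc, ← Real.rpow_add_one hpos.ne']
    norm_num
  rw [e]
  nlinarith

end Crest.Agent.R082.Sharp
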