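import Crest.Agent.R082.Path

/-!
Row 82: Lipschitz stability of Brenier potentials with respect to the quadratic cost.
-/

set_option autoImplicit false

namespace Crest.Agent.R082

open MeasureTheory Crest.AnalysisR.OT Set
open scoped RealInnerProductSpace ENNReal NNReal

variable {d : ℕ} {K : Set (E d)} {R : ℝ}

/-- The constant of the discrete stability estimate. -/
noncomputable def Cd (R : ℝ) : ℝ := 50 * R ^ 2 * (5 + 2 * Cs R) + 4 * R ^ 2

theorem Cd_nonneg (R : ℝ) : 0 ≤ Cd R := by unfold Cd; have := Cs_pos R; positivity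

theorem young_aux {C t a b : ℝ} (hC : 0 < C) : t * (a * b) ≤ b ^ 2 / C + C * t ^ 2 / 4 * a ^ 2 := by
  have h : 0 ≤ (b - C * t * a / 2) ^ 2 / C := by positivity
  have e : (b - C * t * a / 2) ^ 2 / C = b ^ 2 / C + C * t ^ 2 / 4 * a ^ 2 - t * (a * b) := by
    field_simp; ring
  linarith

/-- Dual potentials are Lipschitz stable (finitely supported coupling). -/
theorem disc_dual_stab (hK : IsBody K R) {ι : Type} [Fintype ι] {m : ι → ℝ} {y z : ι → E d}
    (hm0 : ∀ j, 0 ≤ m j) (hm1 : ∑ j, m j = 1)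
    (hy : ∀ j, ‖y j‖ ≤ R) (hz : ∀ j, ‖z j‖ ≤ R) (hinj : ∀ i j, y i = y j → z i = z j → i = j)
    {φ0 ψ0 φ1 ψ1 : E d → ℝ} {T0 T1 : E d → E d}
    (h0 : IsBrenier K R (dm m y) φ0 ψ0 T0) (h1 : IsBrenier K R (dm m z) φ1 ψ1 T1) :
    ∃ c : ℝ, ∑ j, m j * (ψ1 (z j) - ψ0 (y j) - c) ^ 2 ≤
      25 / 2 * R ^ 2 * (5 + 2 * Cs R) * ∑ j, m j * ‖z j - y j‖ ^ 2 := by
  have hR := hK.R_pos
  have hCs := Cs_pos R
  set M := R ^ 2 with hM
  have hM0 : 0 < M := by positivity
  have hCM : 10 * M ≤ Cs R := by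
    unfold Cs; have := Real.exp_pos (9 * R ^ 2); linarith
  let u : ι → ℝ := fun j => ψ1 (z j) - ψ0 (y j)
  have hu : ∀ j, |u j| ≤ 4 * M := fun j => by
    have a := abs_le.1 (h1.bddψ _ (hz j))
    have b := abs_le.1 (h0.bddψ _ (hy j))
    simp only [u]; rw [abs_le]; constructor <;> linarith
  set c := ∑ j, m j * u j with hc
  have hcb : |c| ≤ 4 * M := by
    calc |c| ≤ ∑ j, |m j * u j| := Finset.abs_sum_le_sum_abs _ _
      _ ≤ ∑ j, m j * (4 * M) := Finset.sum_le_sum fun j _ => by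
          rw [abs_mul, abs_of_nonneg (hm0 j)]; exact mul_le_mul_of_nonneg_left (hu j) (hm0 j)
      _ = 4 * M := by rw [← Finset.sum_mul, hm1, one_mul]
  set D := 5 + 2 * Cs R with hD
  have hD0 : 0 < D := by positivity
  set t := 1 / D with ht
  have ht0 : 0 < t := by positivity
  have htD : t * D = 1 := by rw [ht]; field_simp
  have htu : ∀ j, |t * (u j - c)| ≤ 1 / 2 := fun j => by
    have a := abs_le.1 (hu j)
    have b := abs_le.1 hcb
    have e : |u j - c| ≤ 8 * M := by rw [abs_le]; constructor <;> linarith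
    rw [abs_mul, abs_of_pos ht0]
    calc t * |u j - c| ≤ t * (D / 2) := by gcongr; linarith
      _ = 1 / 2 := by linarith
  let m' : ι → ℝ := fun j => m j * (1 - t * (u j - c))
  have hm0' : ∀ j, 0 ≤ m' j := fun j =>
    mul_nonneg (hm0 j) (by linarith [(abs_le.1 (htu j)).2])
  have hzero : ∑ j, m j * (u j - c) = 0 := by
    simp only [mul_sub, Finset.sum_sub_distrib]
    rw [← Finset.sum_mul, hm1, one_mul, ← hc, sub_self]
  have hm1' : ∑ j, m' j = 1 := by
    have : ∀ j, m' j = m j - t * (m j * (u j - c)) := fun j => by simp only [m']; ring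
    simp only [this, Finset.sum_sub_distrib, ← Finset.mul_sum, hzero, hm1, mul_zero, sub_zero]
  have := isProb_dm hm0' hm1' y
  obtain ⟨φ', ψ', T', h'⟩ := exists_isBrenier hK (dm m' y) (ae_dm hy)
  have mix := mixed_diff hK hm0 hm1 hm0' hm1' hy hz hinj h0 h1 h'
  obtain ⟨c', -, hsc⟩ := strong_conv hK h0 h'
  rw [h0.gap_eq hK h', integral_dm hm0, integral_dm hm0,
    h0.integral_comp (f := fun w => (ψ' w - ψ0 w - c') ^ 2)
      (by have := h'.contψ; have := h0.contψ; fun_prop), integral_dm hm0] at hsc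
  set V := ∑ j, m j * (u j - c) ^ 2 with hV
  set W := ∑ j, m j * ‖z j - y j‖ ^ 2 with hW
  have hV0 : 0 ≤ V := Finset.sum_nonneg fun j _ => mul_nonneg (hm0 j) (sq_nonneg _)
  have hW0 : 0 ≤ W := Finset.sum_nonneg fun j _ => mul_nonneg (hm0 j) (sq_nonneg _)
  -- the error term of the path
  have hδ : ∑ j, (5 / 2 * (R * ‖z j - y j‖) ^ 2 * (m j + m' j) +
      5 / 2 * ((m j - m' j) ^ 2 / (m j + m' j))) ≤ 25 / 4 * M * W + 5 / 2 * t ^ 2 * V := by
    rw [hV, hW, Finset.mul_sum, Finset.mul_sum, ← Finset.sum_add_distrib]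
    refine Finset.sum_le_sum fun j _ => add_le_add ?_ ?_
    · have a : m j + m' j ≤ 5 / 2 * m j := by
        have := (abs_le.1 (htu j)).1
        have b := hm0 j
        simp only [m']; nlinarith
      calc 5 / 2 * (R * ‖z j - y j‖) ^ 2 * (m j + m' j)
          ≤ 5 / 2 * (R * ‖z j - y j‖) ^ 2 * (5 / 2 * m j) := by gcongr
        _ = _ := by rw [hM]; ring
    · have a : (m j - m' j) ^ 2 / (m j + m' j) ≤ t ^ 2 * (m j * (u j - c) ^ 2) := by
        refine div_le_of_le_mul₀ (add_nonneg (hm0 j) (hm0' j))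
          (by have := hm0 j; positivity) ?_
        have e : (m j - m' j) ^ 2 = t ^ 2 * (m j * (u j - c) ^ 2) * m j := by
          simp only [m']; ring
        rw [e]
        have := hm0 j
        gcongr
        linarith [hm0' j]
      linarith
  -- the two linear terms
  have e1 : ∑ j, m' j * ψ1 (z j) - ∑ j, m' j * ψ0 (y j) =
      ∑ j, m j * ψ1 (z j) - ∑ j, m j * ψ0 (y j) - t * V := by
    have a : t * V = ∑ j, t * (m j * (u j - c) * u j) := by
      have : V = ∑ j, (m j * (u j - c) * u j - c * (m j * (u j - c))) :=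
        Finset.sum_congr rfl fun j _ => by ring
      rw [this, Finset.sum_sub_distrib, ← Finset.mul_sum, hzero, mul_zero, sub_zero,
        Finset.mul_sum]
    rw [a, ← Finset.sum_sub_distrib, ← Finset.sum_sub_distrib, ← Finset.sum_sub_distrib]
    refine Finset.sum_congr rfl fun j _ => ?_
    simp only [m', u]; ring
  have e2 : ∑ j, m j * ψ' (y j) - ∑ j, m j * ψ0 (y j) -
      (∑ j, m' j * ψ' (y j) - ∑ j, m' j * ψ0 (y j)) ≤
      (∑ j, m j * (ψ' (y j) - ψ0 (y j) - c') ^ 2) / Cs R + Cs R * t ^ 2 / 4 * V := by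
    have a : ∑ j, m j * ψ' (y j) - ∑ j, m j * ψ0 (y j) -
        (∑ j, m' j * ψ' (y j) - ∑ j, m' j * ψ0 (y j)) =
        ∑ j, m j * (t * ((u j - c) * (ψ' (y j) - ψ0 (y j) - c'))) +
          t * c' * ∑ j, m j * (u j - c) := by
      rw [Finset.mul_sum, ← Finset.sum_sub_distrib, ← Finset.sum_sub_distrib,
        ← Finset.sum_sub_distrib, ← Finset.sum_add_distrib]
      refine Finset.sum_congr rfl fun j _ => ?_
      simp only [m']; ring
    rw [a, hzero, mul_zero, add_zero, hV, Finset.sum_div, Finset.mul_sum,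
      ← Finset.sum_add_distrib]
    refine Finset.sum_le_sum fun j _ => ?_
    have b := mul_le_mul_of_nonneg_left
      (young_aux (t := t) (a := u j - c) (b := ψ' (y j) - ψ0 (y j) - c') hCs) (hm0 j)
    refine b.trans (le_of_eq ?_)
    ring
  have e3 : (∑ j, m j * (ψ' (y j) - ψ0 (y j) - c') ^ 2) / Cs R ≤
      (∫ x, φ' x ∂(uniformProbOn K) + ∑ j, m j * ψ' (y j)) -
        (∫ x, φ0 x ∂(uniformProbOn K) + ∑ j, m j * ψ0 (y j)) := by
    rw [div_le_iff₀ hCs, mul_comm]; exact hsc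
  have fin : t * V ≤ 25 / 4 * M * W + (5 / 2 + Cs R / 4) * t ^ 2 * V := by linarith
  refine ⟨c, ?_⟩
  change V ≤ 25 / 2 * M * D * W
  have a : (5 / 2 + Cs R / 4) * t ^ 2 * V ≤ t * V / 2 := by
    have b : (5 / 2 + Cs R / 4) * t ≤ 1 / 2 := by
      calc (5 / 2 + Cs R / 4) * t ≤ D / 2 * t := by gcongr; linarith
        _ = 1 / 2 := by linarith
    calc (5 / 2 + Cs R / 4) * t ^ 2 * V = ((5 / 2 + Cs R / 4) * t) * (t * V) := by ring
      _ ≤ 1 / 2 * (t * V) := by gcongr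
      _ = _ := by ring
  have b : t * V ≤ 25 / 2 * M * W := by linarith
  calc V = D * (t * V) := by rw [← mul_assoc, mul_comm D, htD, one_mul]
    _ ≤ D * (25 / 2 * M * W) := by gcongr
    _ = _ := by ring

/-- Primal potentials are Lipschitz stable (finitely supported coupling). -/
theorem disc_stab (hK : IsBody K R) {ι : Type} [Fintype ι] {m : ι → ℝ} {y z : ι → E d}
    (hm0 : ∀ j, 0 ≤ m j) (hm1 : ∑ j, m j = 1)
    (hy : ∀ j, ‖y j‖ ≤ R) (hz : ∀ j, ‖z j‖ ≤ R) (hinj : ∀ i j, y i = y j → z i = z j → i = j)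
    {φ0 ψ0 φ1 ψ1 : E d → ℝ} {T0 T1 : E d → E d}
    (h0 : IsBrenier K R (dm m y) φ0 ψ0 T0) (h1 : IsBrenier K R (dm m z) φ1 ψ1 T1) :
    ∃ c : ℝ, ∫ x, (φ0 x - φ1 x - c) ^ 2 ∂(uniformProbOn K) ≤
      Cd R * ∑ j, m j * ‖z j - y j‖ ^ 2 := by
  obtain ⟨c, hc⟩ := disc_dual_stab hK hm0 hm1 hy hz hinj h0 h1
  refine ⟨c, ?_⟩
  have hR := hK.R_pos
  have c0 := h0.contψ
  have c1 := h1.contψ
  let F : E d → ℝ := fun w => (ψ1 w - ψ0 w - c) ^ 2
  have cF : Continuous F := by fun_prop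
  have IF : ∀ {σ : Measure (E d)} {φ ψ : E d → ℝ} {T : E d → E d}, IsBrenier K R σ φ ψ T →
      Integrable (fun x => F (T x)) (uniformProbOn K) := by
    intro σ φ ψ T h
    refine hK.integrable_of_bdd (cF.measurable.comp h.measT).aestronglyMeasurable
      ((4 * R ^ 2 + |c|) ^ 2) (h.memT.mono fun x hx => ?_)
    have a := abs_le.1 (h0.bddψ _ hx)
    have b := abs_le.1 (h1.bddψ _ hx)
    rw [Real.norm_eq_abs, abs_of_nonneg (sq_nonneg _)]
    refine sq_le_sq' ?_ ?_
    · linarith [le_abs_self c]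
    · linarith [neg_abs_le c]
  have pt : ∀ᵐ x ∂(uniformProbOn K), (φ0 x - φ1 x - c) ^ 2 ≤ F (T0 x) + F (T1 x) := by
    filter_upwards [h0.memT, h1.memT, h0.eqT, h1.eqT] with x a0 a1 b0 b1
    have f0 := h1.feas x _ a0
    have f1 := h0.feas x _ a1
    simp only [F]
    have u1 : φ0 x - φ1 x - c ≤ ψ1 (T0 x) - ψ0 (T0 x) - c := by linarith
    have u2 : ψ1 (T1 x) - ψ0 (T1 x) - c ≤ φ0 x - φ1 x - c := by linarith
    rcases le_total 0 (φ0 x - φ1 x - c) with h | h
    · have := pow_le_pow_left₀ h u1 2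
      linarith [sq_nonneg (ψ1 (T1 x) - ψ0 (T1 x) - c)]
    · nlinarith [sq_nonneg (ψ1 (T0 x) - ψ0 (T0 x) - c)]
  have I0 : Integrable (fun x => (φ0 x - φ1 x - c) ^ 2) (uniformProbOn K) :=
    hK.integrable_of_continuous (by have := h0.contφ; have := h1.contφ; fun_prop)
  have I1 : Integrable (fun x => F (T0 x) + F (T1 x)) (uniformProbOn K) := (IF h0).add (IF h1)
  refine (integral_mono_ae I0 I1 pt).trans ?_
  rw [integral_add (IF h0) (IF h1), h0.integral_comp cF, h1.integral_comp cF, integral_dm hm0,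
    integral_dm hm0, ← Finset.sum_add_distrib]
  have : ∑ j, (m j * F (y j) + m j * F (z j)) ≤
      ∑ j, (4 * (m j * (ψ1 (z j) - ψ0 (y j) - c) ^ 2) + 4 * R ^ 2 * (m j * ‖z j - y j‖ ^ 2)) := by
    refine Finset.sum_le_sum fun j _ => ?_
    have a := h1.lipψ (z j) (y j)
    have b := h0.lipψ (z j) (y j)
    have a2 : (ψ1 (z j) - ψ1 (y j)) ^ 2 ≤ (R * ‖z j - y j‖) ^ 2 := by
      rw [← sq_abs]; exact pow_le_pow_left₀ (abs_nonneg _) a 2
    have b2 : (ψ0 (z j) - ψ0 (y j)) ^ 2 ≤ (R * ‖z j - y j‖) ^ 2 := by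
      rw [← sq_abs]; exact pow_le_pow_left₀ (abs_nonneg _) b 2
    have e : F (y j) + F (z j) ≤
        4 * (ψ1 (z j) - ψ0 (y j) - c) ^ 2 + 4 * R ^ 2 * ‖z j - y j‖ ^ 2 := by
      simp only [F]
      nlinarith [sq_nonneg (ψ1 (z j) - ψ0 (y j) - c + (ψ1 (z j) - ψ1 (y j))),
        sq_nonneg (ψ1 (z j) - ψ0 (y j) - c + (ψ0 (z j) - ψ0 (y j)))]
    have := mul_le_mul_of_nonneg_left e (hm0 j)
    linarith
  refine this.trans ?_
  rw [Finset.sum_add_distrib, ← Finset.mul_sum, ← Finset.mul_sum]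
  unfold Cd
  linarith

/-- Weak stability of potentials under a uniformly small displacement of the target. -/
theorem weak_stab (hK : IsBody K R) {Ω : Type*} [MeasurableSpace Ω] {π : Measure Ω}
    [IsProbabilityMeasure π] {a b : Ω → E d} (ha : Measurable a) (hb : Measurable b)
    (haR : ∀ᵐ p ∂π, ‖a p‖ ≤ R) (hbR : ∀ᵐ p ∂π, ‖b p‖ ≤ R) {η : ℝ}
    (hab : ∀ᵐ p ∂π, ‖a p - b p‖ ≤ η) {φ ψ φ' ψ' : E d → ℝ} {T T' : E d → E d}
    (h : IsBrenier K R (π.map a) φ ψ T) (h' : IsBrenier K R (π.map b) φ' ψ' T') :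
    ∃ c : ℝ, ∫ x, (φ x - φ' x - c) ^ 2 ∂(uniformProbOn K) ≤ Cs R * (2 * R * η) := by
  obtain ⟨c, hc, -⟩ := strong_conv hK h h'
  refine ⟨c, hc.trans (mul_le_mul_of_nonneg_left ?_ (Cs_pos R).le)⟩
  have hR := hK.R_pos
  have w := h'.weak_duality hK h
  rw [h.gap_eq hK h']
  have aux : ∀ {σ : Measure (E d)} {φ ψ : E d → ℝ} {T : E d → E d}, IsBrenier K R σ φ ψ T →
      |∫ y, ψ y ∂(π.map a) - ∫ y, ψ y ∂(π.map b)| ≤ R * η := by
    intro σ φ ψ T g
    have Ia : Integrable (fun p => ψ (a p)) π := Integrable.of_bound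
      (g.contψ.measurable.comp ha).aestronglyMeasurable _ (haR.mono fun p hp => g.bddψ _ hp)
    have Ib : Integrable (fun p => ψ (b p)) π := Integrable.of_bound
      (g.contψ.measurable.comp hb).aestronglyMeasurable _ (hbR.mono fun p hp => g.bddψ _ hp)
    rw [integral_map ha.aemeasurable g.contψ.aestronglyMeasurable,
      integral_map hb.aemeasurable g.contψ.aestronglyMeasurable, ← integral_sub Ia Ib,
      ← Real.norm_eq_abs]
    have := norm_integral_le_of_norm_le_const (μ := π) (f := fun p => ψ (a p) - ψ (b p))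
      (C := R * η) (hab.mono fun p hp =>
        (g.lipψ _ _).trans (mul_le_mul_of_nonneg_left hp hR.le))
    simpa using this
  have a1 := abs_le.1 (aux h)
  have a2 := abs_le.1 (aux h')
  linarith

theorem map_eq_dm {Ω : Type*} [MeasurableSpace Ω] (π : Measure Ω) [IsFiniteMeasure π]
    {ι : Type} [Fintype ι] {κ : Ω → ι} (hκ : ∀ j, MeasurableSet (κ ⁻¹' {j})) (Y : ι → E d) :
    π.map (fun p => Y (κ p)) = dm (fun j => π.real (κ ⁻¹' {j})) Y := by
  classical
  let _ : MeasurableSpace ι := ⊤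
  have : DiscreteMeasurableSpace ι := ⟨fun _ => trivial⟩
  have mκ : Measurable κ := measurable_to_countable' hκ
  have mY : Measurable Y := Measurable.of_discrete
  ext s hs
  rw [dm_apply _ _ hs, Measure.map_apply (f := fun p => Y (κ p)) (mY.comp mκ) hs]
  have e : (fun p => Y (κ p)) ⁻¹' s = ⋃ j ∈ Finset.univ.filter (fun j => Y j ∈ s), κ ⁻¹' {j} := by
    ext p; simp
  rw [e, measure_biUnion_finset (fun i _ j _ hij => Disjoint.preimage _ (by simpa using hij))
    (fun j _ => hκ j), Finset.sum_filter]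
  refine Finset.sum_congr rfl fun j _ => ?_
  by_cases hj : Y j ∈ s <;> simp [hj]

/-- Quantisation of a compact set in a metric space. -/
theorem exists_quant {X : Type} [MetricSpace X] [MeasurableSpace X] [BorelSpace X]
    {S : Set X} (hS : IsCompact S) (hne : S.Nonempty) {η : ℝ} (hη : 0 < η) :
    ∃ (ι : Type) (_ : Fintype ι) (e : ι → X) (κ : X → ι), Function.Injective e ∧
      (∀ j, e j ∈ S) ∧ (∀ j, MeasurableSet (κ ⁻¹' {j})) ∧ ∀ x ∈ S, dist x (e (κ x)) < η := by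
  classical
  obtain ⟨t, htS, htf, hcov⟩ := hS.finite_cover_balls hη
  have htn : t.Nonempty := by
    obtain ⟨x, hx⟩ := hne
    obtain ⟨w, hw, -⟩ := mem_iUnion₂.1 (hcov hx)
    exact ⟨w, hw⟩
  have : Finite t := htf
  have : Nonempty t := htn.to_subtype
  obtain ⟨f, hf⟩ := exists_surjective_nat t
  have hp : ∀ x : X, ∃ k : ℕ, x ∈ S → dist x (f k) < η := by
    intro x
    by_cases hx : x ∈ S
    · obtain ⟨w, hw, hxw⟩ := mem_iUnion₂.1 (hcov hx)
      obtain ⟨k, hk⟩ := hf ⟨w, hw⟩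
      exact ⟨k, fun _ => by rw [hk]; exact hxw⟩
    · exact ⟨0, fun h => absurd h hx⟩
  have hm : Measurable fun x => Nat.find (hp x) := by
    refine measurable_find hp fun k => ?_
    have : {x | x ∈ S → dist x (f k) < η} = Sᶜ ∪ Metric.ball (f k) η := by
      ext x; simp [imp_iff_not_or]
    rw [this]
    exact hS.measurableSet.compl.union measurableSet_ball
  refine ⟨t, Fintype.ofFinite t, Subtype.val, fun x => f (Nat.find (hp x)),
    Subtype.val_injective, fun j => htS j.2, fun j => ?_, fun x hx => Nat.find_spec (hp x) hx⟩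
  exact hm (MeasurableSet.of_discrete (s := f ⁻¹' {j}))

end Crest.Agent.R082
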