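import Crest.Agent.R082.PLK

/-!
Row 82: strong convexity of the Kantorovich dual functional (variance inequality).
-/

set_option autoImplicit false

namespace Crest.Agent.R082

open MeasureTheory Crest.AnalysisR.OT Set
open scoped RealInnerProductSpace ENNReal NNReal

variable {d : ℕ} {K : Set (E d)} {R : ℝ}

theorem sq_sub_le_exp_aux {p q L : ℝ} (hq : -L ≤ q) (hpq : q ≤ p) :
    (p - q) ^ 2 ≤ Real.exp (2 * L) * (Real.exp p - Real.exp q) ^ 2 := by
  have h1 : p - q + 1 ≤ Real.exp (p - q) := Real.add_one_le_exp _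
  have h2 : Real.exp p = Real.exp q * Real.exp (p - q) := by rw [← Real.exp_add]; ring_nf
  have h3 : 1 ≤ Real.exp L * Real.exp q := by
    rw [← Real.exp_add]; exact Real.one_le_exp (by linarith)
  have h4 : 0 < Real.exp q := Real.exp_pos _
  have h5 : 0 < Real.exp L := Real.exp_pos _
  have h6 : p - q ≤ Real.exp L * (Real.exp p - Real.exp q) := by
    rw [h2]
    have : Real.exp q * (p - q) ≤ Real.exp q * Real.exp (p - q) - Real.exp q := by nlinarith
    calc p - q ≤ (Real.exp L * Real.exp q) * (p - q) := le_mul_of_one_le_left (by linarith) h3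
      _ = Real.exp L * (Real.exp q * (p - q)) := by ring
      _ ≤ _ := by gcongr
  have h7 : Real.exp (2 * L) = Real.exp L ^ 2 := by rw [← Real.exp_nat_mul]; norm_num
  rw [h7, ← mul_pow]
  exact pow_le_pow_left₀ (by linarith) h6 2

theorem sq_sub_le_exp {p q L : ℝ} (hp : -L ≤ p) (hq : -L ≤ q) :
    (p - q) ^ 2 ≤ Real.exp (2 * L) * (Real.exp p - Real.exp q) ^ 2 := by
  rcases le_total q p with h | h
  · exact sq_sub_le_exp_aux hq h
  · have := sq_sub_le_exp_aux hp h
    calc (p - q) ^ 2 = (q - p) ^ 2 := by ring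
      _ ≤ _ := this
      _ = _ := by ring

theorem exp_le_one_add_mul {t L : ℝ} (h0 : 0 ≤ t) (hL : t ≤ L) :
    Real.exp t ≤ 1 + t * Real.exp L := by
  have h1 : -t + 1 ≤ Real.exp (-t) := Real.add_one_le_exp _
  have h2 : Real.exp t * Real.exp (-t) = 1 := by rw [← Real.exp_add]; simp
  have h3 : 0 < Real.exp t := Real.exp_pos _
  have h4 : Real.exp t ≤ Real.exp L := Real.exp_le_exp.2 hL
  nlinarith

theorem abs_inner_le_sq {x y : E d} (hx : ‖x‖ ≤ R) (hy : ‖y‖ ≤ R) : |⟪x, y⟫| ≤ R ^ 2 := by
  refine (abs_real_inner_le_norm x y).trans ?_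
  rw [sq]
  exact mul_le_mul hx hy (norm_nonneg _) ((norm_nonneg _).trans hx)

theorem inner_mid (x y w : E d) : ⟪mid x y, w⟫ = (⟪x, w⟫ + ⟪y, w⟫) / 2 := by
  unfold mid
  rw [inner_add_left, real_inner_smul_left, real_inner_smul_left]
  ring

section
variable {σ σ' : Measure (E d)} {φ ψ φ' ψ' : E d → ℝ} {T T' : E d → E d}

theorem IsBrenier.integrable_φ (hK : IsBody K R) (h : IsBrenier K R σ φ ψ T) :
    Integrable φ (uniformProbOn K) := hK.integrable_of_continuous h.contφ

theorem IsBrenier.integrable_ψT (hK : IsBody K R) (h : IsBrenier K R σ φ ψ T)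
    (h' : IsBrenier K R σ' φ' ψ' T') :
    Integrable (fun x => ψ' (T x)) (uniformProbOn K) :=
  hK.integrable_of_bdd (h'.contψ.measurable.comp h.measT).aestronglyMeasurable (2 * R ^ 2)
    (h.memT.mono fun _ hx => h'.bddψ _ hx)

theorem IsBrenier.integrable_inner (hK : IsBody K R) (h : IsBrenier K R σ φ ψ T) :
    Integrable (fun x => ⟪x, T x⟫) (uniformProbOn K) :=
  hK.integrable_of_bdd (measurable_id.inner h.measT).aestronglyMeasurable (R ^ 2)
    ((h.memT.and hK.ae_norm_le).mono fun _ hx => abs_inner_le_sq hx.2 hx.1)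

theorem exp_neg_bounds (hK : IsBody K R) (h : IsBrenier K R σ φ ψ T) :
    Real.exp (-(2 * R ^ 2)) ≤ ∫ x, Real.exp (-φ x) ∂(uniformProbOn K) ∧
      ∫ x, Real.exp (-φ x) ∂(uniformProbOn K) ≤ Real.exp (2 * R ^ 2) := by
  have := hK.isProb
  have I : Integrable (fun x => Real.exp (-φ x)) (uniformProbOn K) :=
    hK.integrable_of_continuous (by have := h.contφ; fun_prop)
  constructor
  · calc Real.exp (-(2 * R ^ 2)) = ∫ _x, Real.exp (-(2 * R ^ 2)) ∂(uniformProbOn K) := by simp
      _ ≤ _ := by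
        refine integral_mono_ae (integrable_const _) I (hK.ae_norm_le.mono fun x hx => ?_)
        have := abs_le.1 (h.bddφ x hx)
        exact Real.exp_le_exp.2 (by linarith)
  · calc _ ≤ ∫ _x, Real.exp (2 * R ^ 2) ∂(uniformProbOn K) := by
          refine integral_mono_ae I (integrable_const _) (hK.ae_norm_le.mono fun x hx => ?_)
          have := abs_le.1 (h.bddφ x hx)
          exact Real.exp_le_exp.2 (by linarith)
      _ = _ := by simp

end

/-- The constant of the variance inequality. -/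
noncomputable def Cs (R : ℝ) : ℝ := 8 * Real.exp (9 * R ^ 2) + 10 * R ^ 2

theorem Cs_pos (R : ℝ) : 0 < Cs R := by unfold Cs; positivity

/-- **Strong convexity of the Kantorovich functional.** -/
theorem strong_conv (hK : IsBody K R) {σ σ' : Measure (E d)} {φ ψ φ' ψ' : E d → ℝ}
    {T T' : E d → E d} (h : IsBrenier K R σ φ ψ T) (h' : IsBrenier K R σ' φ' ψ' T') :
    ∃ c : ℝ, ∫ x, (φ x - φ' x - c) ^ 2 ∂(uniformProbOn K) ≤
        Cs R * ∫ x, (φ' x + ψ' (T x) - ⟪x, T x⟫) ∂(uniformProbOn K) ∧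
      ∫ x, (ψ' (T x) - ψ (T x) - c) ^ 2 ∂(uniformProbOn K) ≤
        Cs R * ∫ x, (φ' x + ψ' (T x) - ⟪x, T x⟫) ∂(uniformProbOn K) := by
  classical
  have := hK.isProb
  set ρ := uniformProbOn K with hρ
  set M := R ^ 2 with hM
  have hM0 : 0 < M := by have := hK.R_pos; positivity
  obtain ⟨ha1, ha2⟩ := exp_neg_bounds hK h
  obtain ⟨hb1, hb2⟩ := exp_neg_bounds hK h'
  set a := ∫ x, Real.exp (-φ x) ∂ρ with ha
  set b := ∫ x, Real.exp (-φ' x) ∂ρ with hb
  have ha0 : 0 < a := (Real.exp_pos _).trans_le ha1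
  have hb0 : 0 < b := (Real.exp_pos _).trans_le hb1
  set c := Real.log b - Real.log a with hc
  have hla1 : -(2 * M) ≤ Real.log a := (Real.le_log_iff_exp_le ha0).2 ha1
  have hla2 : Real.log a ≤ 2 * M := (Real.log_le_iff_le_exp ha0).2 ha2
  have hlb1 : -(2 * M) ≤ Real.log b := (Real.le_log_iff_exp_le hb0).2 hb1
  have hlb2 : Real.log b ≤ 2 * M := (Real.log_le_iff_le_exp hb0).2 hb2
  have cφ := h.contφ
  have cφ' := h'.contφ
  have cψ := h.contψ
  have cψ' := h'.contψ
  let S : E d → E d := fun x => if ‖T x‖ ≤ R then T x else 0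
  have mS : Measurable S :=
    Measurable.ite (measurableSet_le h.measT.norm measurable_const) h.measT measurable_const
  have hSR : ∀ x, ‖S x‖ ≤ R := by
    intro x
    by_cases hx : ‖T x‖ ≤ R
    · simp [S, hx]
    · simp [S, hx, hK.R_pos.le]
  let f : E d → ℝ := fun x => Real.exp (-φ x + c / 2)
  let g : E d → ℝ := fun x => Real.exp (-φ' x - c / 2)
  let k : E d → ℝ := fun z => Real.exp (-(⟪z, S z⟫ - (ψ (S z) + ψ' (S z)) / 2))
  let e : E d → ℝ := fun x => φ' x + ψ' (T x) - ⟪x, T x⟫
  have If : Integrable f ρ := hK.integrable_of_continuous (by fun_prop)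
  have Ig : Integrable g ρ := hK.integrable_of_continuous (by fun_prop)
  have mk : Measurable k := by
    have h1 : Measurable fun z : E d => ⟪z, S z⟫ := measurable_id.inner mS
    have h2 : Measurable fun z : E d => ψ (S z) := cψ.measurable.comp mS
    have h3 : Measurable fun z : E d => ψ' (S z) := cψ'.measurable.comp mS
    exact Real.measurable_exp.comp (h1.sub ((h2.add h3).div_const 2)).neg
  have Ik : Integrable k ρ := by
    refine hK.integrable_of_bdd mk.aestronglyMeasurable (Real.exp (3 * M))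
      (hK.ae_norm_le.mono fun x hx => ?_)
    have h1 := abs_le.1 (abs_inner_le_sq hx (hSR x))
    have h2 := abs_le.1 (h.bddψ _ (hSR x))
    have h3 := abs_le.1 (h'.bddψ _ (hSR x))
    rw [Real.norm_eq_abs, abs_of_pos (Real.exp_pos _)]
    exact Real.exp_le_exp.2 (by linarith)
  have Ie : Integrable e ρ :=
    ((h'.integrable_φ hK).add (h.integrable_ψT hK h')).sub (h.integrable_inner hK)
  have ef : ∫ x, f x ∂ρ = a * Real.exp (c / 2) := by
    simp only [f, Real.exp_add]; rw [integral_mul_const]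
  have eg : ∫ x, g x ∂ρ = a * Real.exp (c / 2) := by
    simp only [g, sub_eq_add_neg, Real.exp_add]; rw [integral_mul_const, ← hb]
    have h1 : b = a * Real.exp c := by
      rw [hc, Real.exp_sub, Real.exp_log hb0, Real.exp_log ha0]; field_simp
    rw [h1, mul_assoc, ← Real.exp_add]
    ring_nf
  have key : a * Real.exp (c / 2) ≤ ∫ x, k x ∂ρ := by
    refine pl_real hK (f := f) (g := g) (by fun_prop) (by fun_prop) mk If Ig Ik
      (fun z _ => (Real.exp_pos _).le) ?_ ef.ge eg.ge
    intro x _ y _ _ _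
    simp only [f, g, k]
    rw [← Real.exp_add, ← Real.exp_nat_mul, inner_mid]
    refine Real.exp_le_exp.2 ?_
    have h1 := h.feas x _ (hSR (mid x y))
    have h2 := h'.feas y _ (hSR (mid x y))
    push_cast
    linarith
  have he0 : ∀ᵐ x ∂ρ, 0 ≤ e x ∧ e x ≤ 5 * M := by
    filter_upwards [h.memT, hK.ae_norm_le] with x hx hxR
    have h1 := h'.feas x _ hx
    have h2 := abs_le.1 (abs_inner_le_sq hxR hx)
    have h3 := abs_le.1 (h'.bddψ _ hx)
    have h4 := abs_le.1 (h'.bddφ _ hxR)
    simp only [e]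
    constructor <;> linarith
  have hE0 : 0 ≤ ∫ x, e x ∂ρ := integral_nonneg_of_ae (he0.mono fun x hx => hx.1)
  have pt : ∀ᵐ x ∂ρ, (φ x - φ' x - c) ^ 2 ≤
      4 * Real.exp (4 * M) * (f x + g x - 2 * k x + Real.exp (5 * M) * e x) := by
    filter_upwards [h.memT, hK.ae_norm_le, h.eqT, he0] with x hx hxR heq hex
    have h3 := abs_le.1 (h.bddφ _ hxR)
    have h4 := abs_le.1 (h'.bddφ _ hxR)
    have hS : S x = T x := by simp [S, hx]
    set p := (-φ x + c / 2) / 2 with hp
    set q := (-φ' x - c / 2) / 2 with hq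
    have h5 := sq_sub_le_exp (p := p) (q := q) (L := 2 * M) (by rw [hp, hc]; linarith)
      (by rw [hq, hc]; linarith)
    have hf : f x = Real.exp p ^ 2 := by
      simp only [f]; rw [← Real.exp_nat_mul, hp]; congr 1; push_cast; ring
    have hg : g x = Real.exp q ^ 2 := by
      simp only [g]; rw [← Real.exp_nat_mul, hq]; congr 1; push_cast; ring
    have hk : k x = Real.exp p * Real.exp q * Real.exp (e x / 2) := by
      simp only [k, e]; rw [← Real.exp_add, ← Real.exp_add, hS, hp, hq]; congr 1; linarith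
    have h6 : Real.exp (e x / 2) ≤ 1 + e x / 2 * Real.exp (3 * M) :=
      exp_le_one_add_mul (by linarith) (by linarith)
    have h7 : Real.exp p * Real.exp q ≤ Real.exp (2 * M) := by
      rw [← Real.exp_add]; exact Real.exp_le_exp.2 (by rw [hp, hq]; linarith)
    have h8 : Real.exp (5 * M) = Real.exp (2 * M) * Real.exp (3 * M) := by
      rw [← Real.exp_add]; ring_nf
    have h9 : 0 < Real.exp p * Real.exp q := by positivity
    have h10 : 2 * k x ≤ 2 * (Real.exp p * Real.exp q) + Real.exp (5 * M) * e x := by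
      rw [hk, h8]
      have h11 : 0 ≤ e x * Real.exp (3 * M) := mul_nonneg hex.1 (Real.exp_pos _).le
      nlinarith
    have h12 : (φ x - φ' x - c) ^ 2 = 4 * (p - q) ^ 2 := by rw [hp, hq]; ring
    have h13 : (2 * (2 * M)) = 4 * M := by ring
    rw [h13] at h5
    have h14 : 0 < Real.exp (4 * M) := Real.exp_pos _
    rw [h12, hf, hg]
    nlinarith
  have Iu : Integrable (fun x => (φ x - φ' x - c) ^ 2) ρ :=
    hK.integrable_of_continuous (by fun_prop)
  have main : ∫ x, (φ x - φ' x - c) ^ 2 ∂ρ ≤ 4 * Real.exp (9 * M) * ∫ x, e x ∂ρ := by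
    have I1 : Integrable (fun x => f x + g x) ρ := If.add Ig
    have I2 : Integrable (fun x => f x + g x - 2 * k x) ρ := I1.sub (Ik.const_mul 2)
    refine (integral_mono_ae Iu ?_ pt).trans ?_
    · exact (I2.add (Ie.const_mul _)).const_mul _
    · rw [integral_const_mul, integral_add I2 (Ie.const_mul _),
        integral_sub I1 (Ik.const_mul 2), integral_add If Ig, integral_const_mul,
        integral_const_mul, ef, eg]
      have h8 : Real.exp (9 * M) = Real.exp (4 * M) * Real.exp (5 * M) := by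
        rw [← Real.exp_add]; ring_nf
      have h14 : 0 < Real.exp (4 * M) := Real.exp_pos _
      rw [h8]
      nlinarith
  have h9 : 0 < Real.exp (9 * M) := Real.exp_pos _
  refine ⟨c, main.trans ?_, ?_⟩
  · refine mul_le_mul_of_nonneg_right ?_ hE0
    unfold Cs; rw [← hM]; linarith
  · have pt2 : ∀ᵐ x ∂ρ, (ψ' (T x) - ψ (T x) - c) ^ 2 ≤
        2 * (φ x - φ' x - c) ^ 2 + 10 * M * e x := by
      filter_upwards [h.eqT, he0] with x heq hex
      have : ψ' (T x) - ψ (T x) - c = (φ x - φ' x - c) + e x := by simp only [e]; linarith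
      rw [this]
      nlinarith [sq_nonneg (φ x - φ' x - c - e x)]
    have Iv : Integrable (fun x => (ψ' (T x) - ψ (T x) - c) ^ 2) ρ := by
      refine hK.integrable_of_bdd ?_ ((4 * M + |c|) ^ 2) (h.memT.mono fun x hx => ?_)
      · exact ((((cψ'.measurable.comp h.measT).sub (cψ.measurable.comp h.measT)).sub_const
          c).pow_const 2).aestronglyMeasurable
      · have h1 := abs_le.1 (h.bddψ _ hx)
        have h2 := abs_le.1 (h'.bddψ _ hx)
        rw [Real.norm_eq_abs, abs_of_nonneg (sq_nonneg _)]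
        refine sq_le_sq' ?_ ?_
        · linarith [le_abs_self c]
        · linarith [neg_abs_le c]
    have I3 : Integrable (fun x => 2 * (φ x - φ' x - c) ^ 2 + 10 * M * e x) ρ :=
      (Iu.const_mul 2).add (Ie.const_mul _)
    refine (integral_mono_ae Iv I3 pt2).trans ?_
    rw [integral_add (Iu.const_mul 2) (Ie.const_mul _), integral_const_mul, integral_const_mul]
    unfold Cs; rw [← hM]
    change _ ≤ _ * ∫ x, e x ∂ρ
    nlinarith

end Crest.Agent.R082
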